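import Vale.Agent.P284.H608.K.Spec
import Vale.Agent.P284.H998.StkU
import Vale.Agent.P284.H553.LBS
import Vale.Agent.P284.H608.K.App

/-!
# P284 (helper553), K8: statements

`X` is compact Kähler, `p : E → X` a covering, `v` a natural form, `Zs p v` its zero set. The engine is
applied on `M = X \ Zs p v`.
-/

open scoped Manifold ContDiff Topology ComplexConjugate ComplexOrder ENNReal
open Filter Set Metric MeasureTheory

noncomputable section

namespace Vale.Agent.P284.H553.K8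

open Vale.Agent.P272.K Vale.Agent.P284.H573 Vale.Agent.P284.H395 Vale.Agent.P284.H998
  Vale.Agent.P284.H998.U Vale.Agent.P284.H553.LB Vale.Agent.P284.H608.K Vale.Agent.P284.H837
  Vale.Agent.P284.H894 Vale.Agent.P284.H894.G

/-- the determinant as a continuous alternating form -/
def detL (R : ℕ) : Af R R :=
  { Matrix.detRowAlternating (n := Fin R) (R := ℂ) with
    cont := by
      have h : (fun v : Fin R → Cm R => (Matrix.detRowAlternating (n := Fin R) (R := ℂ)) v) =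
          fun v => (Matrix.of v).det := rfl
      exact Continuous.matrix_det continuous_id }

/-- the form `db_1 ∧ … ∧ db_R` at `z` -/
def dF {n R : ℕ} (b : Cm n → Cm R) (z : Cm n) : Af n R :=
  (detL R).compContinuousLinearMap (fderiv ℂ b z)

theorem dF_apply {n R : ℕ} (b : Cm n → Cm R) (z : Cm n) (ξ : Fin R → Cm n) :
    dF b z ξ = (DM b z ξ).det := by
  have h : dF b z ξ = (Matrix.of fun i => fderiv ℂ b z (ξ i)).det := rfl
  rw [h, ← Matrix.det_transpose]
  rfl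

section
variable {n R : ℕ} {X E : Type} [TopologicalSpace X] [ChartedSpace (Cm n) X] [TopologicalSpace E]
  {H : Type} [NormedAddCommGroup H] [InnerProductSpace ℂ H]

/-- the complement of the zero set of `v` -/
abbrev MZ (p : E → X) (v : E → Chart n X → (Fin R → Cm n) → H) : Type := {x : X // x ∉ Zs p v}

/-- A leaf chart over the ball `ball b₀ r`: `β` is a holomorphic map from the open subset `N` of
`X \ Zs p v` to the ball; near the points of `N` (for some point `y` over `x`)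
`v = (det (dβ ξ))^m γ(β)`; and `{β ∈ K}` is closed in `X \ Zs p v` for `K` compact. -/
structure Lf (m : ℕ) (p : E → X) (v : E → Chart n X → (Fin R → Cm n) → H) (γ : Cm R → H)
    (b₀ : Cm R) (r : ℝ) (N : Set X) (β : X → Cm R) (x₀ : X) : Prop where
  pos : 0 < r
  γan : ∀ b ∈ ball b₀ r, AnalyticAt ℂ γ b
  imm : ∀ b ∈ ball b₀ r, ImmAt γ b
  /-- `γ` is projectively injective at `b₀` -/
  inj : ∀ b ∈ ball b₀ r, ∀ a : ℂ, γ b = a • γ b₀ → b = b₀
  isOpen : IsOpen N
  off : ∀ x ∈ N, x ∉ Zs p v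
  maps : ∀ x ∈ N, β x ∈ ball b₀ r
  an : ∀ x ∈ N, ∀ e : Chart n X, At e x → AnalyticAt ℂ (fun z => β (e.symm z)) (e x)
  nf : ∀ x ∈ N, ∃ y, p y = x ∧ ∀ e : Chart n X, At e x → ∀ᶠ y' in 𝓝 y, ∀ ξ : Fin R → Cm n,
    v y' e ξ = (DM (fun z => β (e.symm z)) (e (p y')) ξ).det ^ m • γ (β (p y'))
  closed : ∀ K ⊆ ball b₀ r, IsCompact K → ∀ x, x ∉ Zs p v → x ∈ closure {x' ∈ N | β x' ∈ K} →
    x ∈ N ∧ β x ∈ K
  mem : x₀ ∈ N
  eq : β x₀ = b₀

end

/-- **K8a** -/
def LfStmt : Prop :=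
  ∀ (n : ℕ) (X : Type) [TopologicalSpace X] [T2Space X] [CompactSpace X] [ConnectedSpace X]
    [ChartedSpace (Cm n) X] [IsManifold 𝓘(ℂ, Cm n) ω X]
    (E Γ : Type) [TopologicalSpace E] [ConnectedSpace E] [Group Γ] [MulAction Γ E]
    (p : E → X) (_ : IsGalois Γ p)
    (q : ℕ) (F : E → Cm q) (c : Γ → Cm q)
    (_ : ∀ (y : E) (e : Chart n X), At e (p y) → ∃ f : Cm n → Cm q,
      (∀ᶠ y' in 𝓝 y, F y' = f (e (p y'))) ∧ AnalyticAt ℂ f (e (p y)))
    (_ : ∀ g y, F (g • y) = F y + c g)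
    (H : Type) [NormedAddCommGroup H] [InnerProductSpace ℂ H] [CompleteSpace H]
    (R m : ℕ) (_ : 1 ≤ R) (_ : 1 ≤ m) (v : E → Chart n X → (Fin R → Cm n) → H)
    (_ : HForm n R m p H v) (_ : Eqv Γ p v)
    (_ : ∃ y₀ e b γ t, NFF m p v F y₀ e b γ t) (_ : LFin Γ m p v F),
    ∃ (γ : Cm R → H) (b₀ : Cm R) (r : ℝ) (N : Set X) (β : X → Cm R) (x₀ : X),
      Lf m p v γ b₀ r N β x₀

/-- **K8**: the form of `SpK` which is proved here, from the engine -/
def Sp8Stmt : Prop :=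
  ∀ (n : ℕ) (X : Type) [TopologicalSpace X] [T2Space X] [CompactSpace X] [ConnectedSpace X]
    [ChartedSpace (Cm n) X] [IsManifold 𝓘(ℂ, Cm n) ω X]
    (w : Chart n X → Cm n → Matrix (Fin n) (Fin n) ℂ) (_ : IsKahler w)
    (E : Type) [TopologicalSpace E] [ConnectedSpace E] (p : E → X) (_ : IsCoveringMap p)
    (_ : Function.Surjective p)
    (H : Type) [NormedAddCommGroup H] [InnerProductSpace ℂ H] [CompleteSpace H]
    (R m : ℕ) (_ : 1 ≤ R) (_ : 1 ≤ m) (v : E → Chart n X → (Fin R → Cm n) → H)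
    (_ : HForm n R m p H v)
    (γ : Cm R → H) (b₀ : Cm R) (r : ℝ) (N : Set X) (β : X → Cm R) (x₀ : X)
    (_ : Lf m p v γ b₀ r N β x₀),
    ∃ k, 1 ≤ k ∧ ∃ s : Fin (R + 1) → X → Chart n X → (Fin R → Cm n) → ℂ, (∀ a, LSec p R m k v (s a)) ∧
      ∃ x ∈ GoodX p R m v, ∃ (e : Chart n X) (ξ : Fin R → Cm n), At e x ∧ s 0 x e ξ ≠ 0 ∧
        LinearIndependent ℂ fun a : Fin R =>
          fderiv ℂ (fun z => s a.succ (e.symm z) e ξ / s 0 (e.symm z) e ξ) (e x)

end Vale.Agent.P284.H553.K8
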