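import Vale.Agent.P284.H553.K8.Loc

/-!
# P284 (helper553), K8: the leaf chart; the multi-form of `s₀`
-/

open scoped Manifold ContDiff Topology ComplexConjugate ComplexOrder ENNReal InnerProductSpace
open Filter Set Metric MeasureTheory

noncomputable section

namespace Vale.Agent.P284.H553.K8

open Vale.Agent.P272.K Vale.Agent.P284.H573 Vale.Agent.P284.H395 Vale.Agent.P284.H998
  Vale.Agent.P284.H998.U Vale.Agent.P284.H553.LB Vale.Agent.P284.H608.K Vale.Agent.P284.H837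
  Vale.Agent.P284.H894 Vale.Agent.P284.H894.G Vale.Agent.P284.H47.K Vale.Agent.P284.H213.KL

theorem surj_of_det {n R : ℕ} {B : Cm n →L[ℂ] Cm R} {ξ : Fin R → Cm n} (h : (LM B ξ).det ≠ 0) :
    Function.Surjective B := by
  intro t
  have hu : IsUnit (LM B ξ).det := isUnit_iff_ne_zero.2 h
  refine ⟨∑ k, ((LM B ξ)⁻¹.mulVec t) k • ξ k, ?_⟩
  have h1 : (LM B ξ).mulVec ((LM B ξ)⁻¹.mulVec t) = t := by
    rw [Matrix.mulVec_mulVec, Matrix.mul_nonsing_inv _ hu, Matrix.one_mulVec]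
  rw [map_sum]
  conv_rhs => rw [← h1]
  funext i
  simp only [Finset.sum_apply, map_smul, Pi.smul_apply, smul_eq_mul, Matrix.mulVec, dotProduct,
    LM_apply]
  exact Finset.sum_congr rfl fun k _ => mul_comm _ _

section
variable {n R m : ℕ} {X E : Type} [TopologicalSpace X] [ChartedSpace (Cm n) X] [TopologicalSpace E]
  {H : Type} [NormedAddCommGroup H] [InnerProductSpace ℂ H]
  {p : E → X} {v : E → Chart n X → (Fin R → Cm n) → H}
  {γ : Cm R → H} {b₀ : Cm R} {r : ℝ} {N : Set X} {β : X → Cm R} {x₀ : X}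
  [IsManifold 𝓘(ℂ, Cm n) ω X]

theorem Lf.surj (hv : HForm n R m p H v) (hm : 1 ≤ m) (L : Lf m p v γ b₀ r N β x₀) {x : X}
    (hx : x ∈ N) {e : Chart n X} (he : At e x) :
    Function.Surjective (fderiv ℂ (fun z => β (e.symm z)) (e x)) := by
  obtain ⟨y, hy, hnf⟩ := L.nf x hx
  subst hy
  obtain ⟨ξ, hξ⟩ := NZ.chart hv (nz_of_notMem (L.off _ hx) rfl) he
  rw [(hnf e he).self_of_nhds ξ] at hξ
  refine surj_of_det (ξ := ξ) ?_
  rw [← DM_eq]
  intro h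
  rw [h, zero_pow (by omega), zero_smul] at hξ
  exact hξ rfl

theorem Lf.isNF (hv : HForm n R m p H v) (hp : Continuous p) (hm : 1 ≤ m)
    (L : Lf m p v γ b₀ r N β x₀) {x : X} (hx : x ∈ N) :
    ∃ y, p y = x ∧ ∀ e : Chart n X, At e x → IsNF m p v y e (fun z => β (e.symm z)) γ := by
  obtain ⟨y, hy, hnf⟩ := L.nf x hx
  subst hy
  refine ⟨y, rfl, fun e he => ?_⟩
  have h1 : β (e.symm (e (p y))) = β (p y) := by rw [he.left_inv]
  refine ⟨he, L.an _ hx e he, L.surj hv hm hx he, ?_, ?_, ?_⟩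
  · simp only [h1]; exact L.γan _ (L.maps _ hx)
  · simp only [h1]; exact L.imm _ (L.maps _ hx)
  · filter_upwards [hnf e he, hp.continuousAt.eventually (at_ev he)] with y' h2 h3 ξ
    simp only [h2 ξ, h3.left_inv]

theorem Lf.good (hv : HForm n R m p H v) (hp : Continuous p) (hm : 1 ≤ m)
    (L : Lf m p v γ b₀ r N β x₀) {x : X} (hx : x ∈ N) : x ∈ GoodX p R m v := by
  obtain ⟨y, hy, h⟩ := L.isNF hv hp hm hx
  exact ⟨y, hy, _, _, _, h (chartAt (Cm n) x) (at_chart x)⟩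

theorem Lf.fderiv_beta (L : Lf m p v γ b₀ r N β x₀) {x : X} (hx : x ∈ N)
    {e e' : Chart n X} (he : At e x) (he' : At e' x) :
    fderiv ℂ (fun z => β (e.symm z)) (e x) =
      (fderiv ℂ (fun z => β (e'.symm z)) (e' x)).comp (tau e e' x) := by
  have h1 : (fun z => β (e.symm z)) =ᶠ[𝓝 (e x)] fun z => β (e'.symm (e' (e.symm z))) := by
    filter_upwards [ev_chart he (at_ev he')] with z hz
    rw [hz.left_inv]
  rw [h1.fderiv_eq]
  have h2 : e' (e.symm (e x)) = e' x := by rw [he.left_inv]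
  have h3 := fderiv_comp (𝕜 := ℂ) (g := fun z => β (e'.symm z)) (f := fun z => e' (e.symm z)) (e x)
    (by rw [h2]; exact (L.an x hx e' he').differentiableAt) (transition_differentiableAt he he')
  rw [h2] at h3
  exact h3

theorem Lf.DM_beta (L : Lf m p v γ b₀ r N β x₀) {x : X} (hx : x ∈ N)
    {e e' : Chart n X} (he : At e x) (he' : At e' x) (ξ : Fin R → Cm n) :
    DM (fun z => β (e.symm z)) (e x) ξ =
      DM (fun z => β (e'.symm z)) (e' x) (fun k => tau e e' x (ξ k)) := by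
  rw [DM_eq, DM_eq, L.fderiv_beta hx he he']
  rfl

/-- `v` over the leaf chart -/
theorem Lf.vform (hL : Line n p v (Zs p v)) (hv : HForm n R m p H v)
    (L : Lf m p v γ b₀ r N β x₀) {x : X} (hx : x ∈ N) {y : E} (hy : p y = x) :
    ∃ G : H, ‖G‖ = ‖γ (β x)‖ ∧ G ≠ 0 ∧ ∀ e : Chart n X, At e x → ∀ ξ, v y e ξ =
      (DM (fun z => β (e.symm z)) (e x) ξ).det ^ m • G := by
  obtain ⟨y₁, hy₁, hnf⟩ := L.nf x hx
  have hβx : γ (β x) ≠ 0 := (L.imm _ (L.maps x hx)).1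
  have hc := at_chart (n := n) x
  obtain ⟨c, G, ⟨ξ₁, hξ₁⟩, ⟨a, ha, hG⟩, hcG⟩ := hL x (L.off x hx) (chartAt (Cm n) x) hc
  have h1 : ∀ ξ, (DM (fun z => β ((chartAt (Cm n) x).symm z)) (chartAt (Cm n) x x) ξ).det ^ m •
      γ (β x) = c ξ • G y₁ := by
    intro ξ
    have h2 := (hnf (chartAt (Cm n) x) hc).self_of_nhds ξ
    rw [hy₁] at h2
    rw [← h2, hcG y₁ hy₁ ξ]
  have hGy₁ : G y₁ ≠ 0 := by
    rw [← norm_pos_iff, hG y₁ hy₁]; exact ha
  set D := (DM (fun z => β ((chartAt (Cm n) x).symm z)) (chartAt (Cm n) x x) ξ₁).det with hD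
  have hDm : D ^ m ≠ 0 := by
    intro h0
    have := h1 ξ₁
    rw [← hD, h0, zero_smul] at this
    exact (smul_ne_zero hξ₁ hGy₁) this.symm
  have h3 : G y₁ = (D ^ m / c ξ₁) • γ (β x) := by
    have := h1 ξ₁
    rw [← hD] at this
    rw [div_eq_inv_mul, mul_smul, this, smul_smul, inv_mul_cancel₀ hξ₁, one_smul]
  have h4 : ∀ ξ, c ξ = (DM (fun z => β ((chartAt (Cm n) x).symm z)) (chartAt (Cm n) x x) ξ).det ^ m *
      (c ξ₁ / D ^ m) := by
    intro ξ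
    have h5 := h1 ξ
    rw [h3, smul_smul] at h5
    have h6 := smul_left_injective ℂ hβx h5
    rw [h6]
    field_simp
  refine ⟨(c ξ₁ / D ^ m) • G y, ?_, ?_, ?_⟩
  · have h5 : ‖G y₁‖ = ‖D ^ m / c ξ₁‖ * ‖γ (β x)‖ := by rw [h3, norm_smul]
    have h6 : 0 < ‖c ξ₁‖ := norm_pos_iff.2 hξ₁
    have h7 : 0 < ‖D ^ m‖ := norm_pos_iff.2 hDm
    rw [norm_smul, hG y hy, ← hG y₁ hy₁, h5, norm_div, norm_div]
    field_simp
  · refine smul_ne_zero (div_ne_zero hξ₁ hDm) ?_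
    rw [← norm_pos_iff, hG y hy]; exact ha
  · intro e he ξ
    have h5 := hv.change y e (chartAt (Cm n) x) (hy ▸ he) (by rw [hy]; exact hc) ξ
    rw [hy] at h5
    rw [h5, hcG y hy, h4, smul_smul, L.DM_beta hx he hc ξ]

end

section
variable {n R m : ℕ} {X E : Type} [TopologicalSpace X] [ChartedSpace (Cm n) X] [TopologicalSpace E]
  [MeasurableSpace X] {H : Type} [NormedAddCommGroup H] [InnerProductSpace ℂ H]
  {p : E → X} {v : E → Chart n X → (Fin R → Cm n) → H}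
  {h : Chart n X → Cm n → Matrix (Fin n) (Fin n) ℂ} {j : ℕ} {K : KA n (MZ p v)}
  {γ : Cm R → H} {b₀ : Cm R} {r : ℝ} {N : Set X} {β : X → Cm R} {x₀ : X}
  [IsManifold 𝓘(ℂ, Cm n) ω X]

/-- the multi-form of `s₀` -/
theorem KL.tot_s0 (L : KL p v h j K) (hL : Line n p v (Zs p v)) (hv : HForm n R m p H v)
    (F : Lf m p v γ b₀ r N β x₀) {ℓ₀ : H →L[ℂ] ℂ} {f : Cm R → ℂ}
    (hs : K.IsForm (L.s0 m γ ℓ₀ N β f)) {x : X} (hx : x ∈ N) {e : Chart n X} (he : At e x)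
    (ξ : Fin R → Cm n) :
    L.tot (L.s0 m γ ℓ₀ N β f) x e ξ = f (β x) * (ℓ₀ (γ (β x)) ^ j *
      (DM (fun z => β (e.symm z)) (e x) ξ).det ^ (m * j + 1)) := by
  obtain ⟨i, hi⟩ := L.exists_ix ⟨x, F.off x hx⟩
  have hi' : x ∈ L.U i := hi
  have hat := L.atU hi'
  rw [L.tot_eq hL hv hs hi' he]
  have h1 : (L.e i).symm (L.e i x) = x := hat.left_inv
  have h2 : L.s0 m γ ℓ₀ N β f i (L.e i x) = (f (β x) * (ℓ₀ (γ (β x)) *
      (DM (fun z => β ((L.e i).symm z)) (L.e i x) (L.ξ i)).det ^ m /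
        L.ℓ i (v (L.τ i x) (L.e i) (L.ξ i))) ^ j) •
      dF (fun z => β ((L.e i).symm z)) (L.e i x) := by
    rw [KL.s0, if_pos ⟨L.mem_tgt hi', by rw [h1]; exact hx⟩, h1]
  obtain ⟨G, -, hG0, hG⟩ := F.vform hL hv hx (L.hτ i x hi')
  have hne := L.hne i x hi'
  rw [h2, ContinuousAlternatingMap.smul_apply, dF_apply, ← F.DM_beta hx he hat ξ, hG _ hat,
    hG _ he]
  rw [hG _ hat, map_smul, smul_eq_mul] at hne
  obtain ⟨h3, h4⟩ := mul_ne_zero_iff.1 hne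
  simp only [map_smul, smul_eq_mul]
  have h5 : (ℓ₀ (γ (β x)) * (DM (fun z => β ((L.e i).symm z)) (L.e i x) (L.ξ i)).det ^ m /
      ((DM (fun z => β ((L.e i).symm z)) (L.e i x) (L.ξ i)).det ^ m * L.ℓ i G)) =
      ℓ₀ (γ (β x)) / L.ℓ i G := by
    field_simp
  rw [h5, div_pow, mul_pow]
  have h6 : (L.ℓ i) G ^ j ≠ 0 := pow_ne_zero j h4
  field_simp
  ring

end

end Vale.Agent.P284.H553.K8
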