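import Vale.Agent.P284.H553.K8.SpKF
import Vale.Agent.P284.H47.K.EngHalf
import Vale.Agent.P284.H419.K.Den
import Vale.Agent.P284.H286.K.Eng
import Vale.Agent.P284.H286.K.Meas
import Vale.Agent.P284.H366.K.K7
import Vale.Agent.P284.H136.K8.C3
import Vale.Agent.P284.H752.K8.D

/-!
# P284 (helper553), K8: the engine `EngStmt`; `SpK`, `SpKN`
-/

open scoped Manifold ContDiff Topology ComplexConjugate ComplexOrder ENNReal InnerProductSpace
open Filter Set Metric MeasureTheory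

noncomputable section

namespace Vale.Agent.P284.H553.K8

open Vale.Agent.P272.K Vale.Agent.P284.H573 Vale.Agent.P284.H395 Vale.Agent.P284.H998
  Vale.Agent.P284.H998.U Vale.Agent.P284.H553.LB Vale.Agent.P284.H608.K Vale.Agent.P284.H837
  Vale.Agent.P284.H894 Vale.Agent.P284.H894.G Vale.Agent.P284.H47.K Vale.Agent.P284.H213.KL
  Vale.Agent.P284.H286.K Vale.Agent.P284.H248

/-- **the `L²` engine** -/
theorem engStmt : EngStmt :=
  eng_of H752.k1Stmt (fun n M _ _ _ _ K => k3 n M K)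
    (fun n M _ _ _ _ K => H419.K.k45_of H752.k1Stmt (k3 n M K))
    (fun n M _ _ _ _ K => H419.K.k45z_of H752.k1Stmt (k3 n M K))
    (fun n M _ _ _ _ _ K => H366.K.k7_of H752.k1Stmt (k3 n M K))

/-- the application of the engine -/
theorem outStmt : OutStmt := by
  intro n r₁ m X _ _ _ _ _ _ _ w h ρ E _ p H _ _ _ v Hy hcut γ b₀ r N β x₀ F _
  obtain ⟨cut⟩ := hcut
  have hBM : BorelSpace (MZ p v) := borel_compl _
  obtain ⟨μ, hμ⟩ := exists_vol measStmt Hy.vd Hy.koff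
  obtain ⟨Q, hQ0, hQ1, -, C₁, -, hout⟩ := engHalf H136.K8.cStmt H752.K8.dStmt
    engStmt Hy cut F μ hμ
  refine ⟨C₁, Q, hQ0, hQ1, fun j a => ?_⟩
  obtain ⟨s, h1, h2, h3, -, h5⟩ := hout j a
  obtain ⟨hs1, hs2, -, -, -⟩ := H136.K8.cStmt n (r₁ + 1) m X w h ρ E p H v Hy γ b₀ r N β x₀ F
    (ff b₀ r F.pos a) (ff_smooth b₀ r F.pos a) (ff_compact b₀ r F.pos a)
    ((ff_tsupport b₀ r F.pos a).trans (closedBall_subset_ball (by have := F.pos; linarith)))
    (l0 γ b₀) (j + 1) _ (H553.K8.klV Hy.vd h Hy.koff (j + 1) μ hμ)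
  have hs4 := nl_s0 H136.K8.cStmt Hy F (ff_smooth b₀ r F.pos a) (ff_compact b₀ r F.pos a)
    (ff_tsupport b₀ r F.pos a) (j + 1) μ hμ
  exact ⟨_, H553.K8.klV Hy.vd h Hy.koff (j + 1) μ hμ, s, hμ,
    kaV_cHess Hy.vd h Hy.koff (j + 1) μ hμ Hy.rhoF, h1, h2, h3, hs1, hs2, hs4, h5⟩

/-- **SP** for special compact Kähler manifolds, affine maps -/
theorem spKN : Vale.Agent.P284.H837.N.SpKN := spKN_of outStmt

/-- **SP** for special compact Kähler manifolds -/
theorem spK : Vale.Agent.P284.H213.K.SpK := spK_of outStmt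

end Vale.Agent.P284.H553.K8
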