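import Vale.Agent.P284.H553.K8.Nf
import Vale.Agent.P284.H47.K.CutV

/-!
# P284 (helper553), K8: the link with helper47's framed charts; statements of the open pieces
-/

open scoped Manifold ContDiff Topology ComplexConjugate ComplexOrder ENNReal InnerProductSpace
open Filter Set Metric MeasureTheory

noncomputable section

namespace Vale.Agent.P284.H553.K8

open Vale.Agent.P272.K Vale.Agent.P284.H573 Vale.Agent.P284.H395 Vale.Agent.P284.H998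
  Vale.Agent.P284.H998.U Vale.Agent.P284.H553.LB Vale.Agent.P284.H608.K Vale.Agent.P284.H837
  Vale.Agent.P284.H894 Vale.Agent.P284.H894.G Vale.Agent.P284.H47.K

section
variable {n R m : ℕ} {X E : Type} [TopologicalSpace X] [ChartedSpace (Cm n) X] [TopologicalSpace E]
  {H : Type} [NormedAddCommGroup H] [InnerProductSpace ℂ H] [CompleteSpace H]
  {p : E → X} {v : E → Chart n X → (Fin R → Cm n) → H} [IsManifold 𝓘(ℂ, Cm n) ω X]
  [MeasurableSpace X] [Nonempty (MZ p v)]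

/-- helper47's framed charts -/
def klV (hV : VD m p v (Zs p v)) (h : Chart n X → Cm n → Matrix (Fin n) (Fin n) ℂ)
    (hh : KOff (Zs p v) h) (j : ℕ) (μ : Measure (MZ p v)) (hμ : VolV p v (Zs p v) h μ) :
    KL p v h j (kaV hV h hh j μ hμ) where
  e i := Fr.e i
  U i := Fr.U i
  τ i := Fr.τ i
  ξ i := Fr.ξ i
  ℓ i := Fr.ℓ i
  he i := Fr.he i
  hU i := Fr.Uo i
  hUe i := Fr.Ue i
  hUZ i := Fr.UZ i
  hτ i := Fr.pτ i
  hτc i := Fr.τc i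
  hne i := Fr.ne i
  src i := rfl
  tgt i := rfl
  app i x := rfl
  symm i z hz := Fr.c_symm (i := i) hz
  w i z hz := rfl
  φ i z hz := by
    have hz' : z ∈ (Fr.c i).target := hz
    obtain ⟨x, hx, rfl, hxz⟩ := Fr.exists_of_target hz'
    have h1 : (0 : ℝ) < ‖v (Fr.τ i (Fr.e i |>.symm (Fr.e i x))) (Fr.e i) (Fr.ξ i)‖ := by
      rw [hxz]
      exact norm_pos_iff.2 (Fr.v_ne i hx)
    have h2 : (0 : ℝ) < ‖Fr.ℓ i (v (Fr.τ i (Fr.e i |>.symm (Fr.e i x))) (Fr.e i) (Fr.ξ i))‖ := by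
      rw [hxz]
      exact norm_pos_iff.2 (Fr.ne i x hx)
    rw [← Real.log_div (by positivity) (by positivity)]
    rfl
  a i i' z hz hz' := rfl

end

/-! ### the section `s₀` -/

section
variable {n R : ℕ} {X E : Type} [TopologicalSpace X] [ChartedSpace (Cm n) X] [TopologicalSpace E]
  [MeasurableSpace X] {H : Type} [NormedAddCommGroup H] [InnerProductSpace ℂ H]
  {p : E → X} {v : E → Chart n X → (Fin R → Cm n) → H}
  {h : Chart n X → Cm n → Matrix (Fin n) (Fin n) ℂ} {j : ℕ} {K : KA n (MZ p v)}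

open Classical in
/-- `s₀ = f(β) (ℓ₀ γ(β))^j (det dβ)^{mj} dβ_1 ∧ … ∧ dβ_R`, in the frame `(ℓ_i v)^j` -/
def KL.s0 (L : KL p v h j K) (m : ℕ) (γ : Cm R → H) (ℓ₀ : H →L[ℂ] ℂ) (N : Set X) (β : X → Cm R)
    (f : Cm R → ℂ) : K.Fm R := fun i z =>
  if z ∈ (K.e i).target ∧ (L.e i).symm z ∈ N then
    (f (β ((L.e i).symm z)) * (ℓ₀ (γ (β ((L.e i).symm z))) *
      (DM (fun z => β ((L.e i).symm z)) z (L.ξ i)).det ^ m /
        L.ℓ i (v (L.τ i ((L.e i).symm z)) (L.e i) (L.ξ i))) ^ j) •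
      dF (fun z => β ((L.e i).symm z)) z
  else 0

/-- `|dβ_1 ∧ … ∧ dβ_R|²_h` at the point `x` -/
def mF (h : Chart n X → Cm n → Matrix (Fin n) (Fin n) ℂ) (β : X → Cm R) (x : X) : ℝ :=
  (hn (h (chartAt (Cm n) x) (chartAt (Cm n) x x))
    (dF (fun z => β ((chartAt (Cm n) x).symm z)) (chartAt (Cm n) x x))
    (dF (fun z => β ((chartAt (Cm n) x).symm z)) (chartAt (Cm n) x x))).re

/-- `|ℓ₀ γ|² / ‖γ‖²` -/
def rat (γ : Cm R → H) (ℓ₀ : H →L[ℂ] ℂ) (b : Cm R) : ℝ := ‖ℓ₀ (γ b)‖ ^ 2 / ‖γ b‖ ^ 2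

end

/-- the common hypotheses -/
structure Hyp (n R m : ℕ) (X : Type) [TopologicalSpace X] [ChartedSpace (Cm n) X]
    (w h ρ : Chart n X → Cm n → Matrix (Fin n) (Fin n) ℂ)
    (E : Type) [TopologicalSpace E] (p : E → X) (H : Type) [NormedAddCommGroup H]
    [InnerProductSpace ℂ H] (v : E → Chart n X → (Fin R → Cm n) → H) : Prop where
  hR : 1 ≤ R
  hm : 1 ≤ m
  kah : IsKahler w
  cov : IsCoveringMap p
  surj : Function.Surjective p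
  form : HForm n R m p H v
  vd : VD m p v (Zs p v)
  line : Line n p v (Zs p v)
  koff : KOff (Zs p v) h
  ge : ∀ e x, At e x → x ∉ Zs p v → (h e (e x) - w e (e x)).PosSemidef
  rho : IsRho (Zs p v) R ρ
  rhoF : RhoF p v ρ
  mass : ∀ (e : Chart n X) x, At e x → ∃ U ∈ 𝓝 (e x),
    ∫⁻ z in U ∩ e.symm ⁻¹' (Zs p v)ᶜ, ENNReal.ofReal ((ρ e z + h e z).det.re) < ⊤

/-- **(B)** the pointwise bound near any point of `X`, with a constant which does not depend on `j`, `K`,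
`s`: `|s_i(ξ)|² e^{-φ_i} ≤ C |s|² det h`. -/
def BStmt : Prop :=
  ∀ (n R m : ℕ) (X : Type) [TopologicalSpace X] [T2Space X] [CompactSpace X]
    [ChartedSpace (Cm n) X] [IsManifold 𝓘(ℂ, Cm n) ω X] [MeasurableSpace X] [BorelSpace X]
    (w h ρ : Chart n X → Cm n → Matrix (Fin n) (Fin n) ℂ)
    (E : Type) [TopologicalSpace E] (p : E → X) (H : Type) [NormedAddCommGroup H]
    [InnerProductSpace ℂ H] [CompleteSpace H] (v : E → Chart n X → (Fin R → Cm n) → H)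
    (_ : Hyp n R m X w h ρ E p H v) (x₁ : X) (e : Chart n X) (_ : At e x₁) (ξ : Fin R → Cm n),
    ∃ C : ℝ, 0 ≤ C ∧ ∀ᶠ x in 𝓝 x₁, At e x ∧ ∀ (j : ℕ) (K : KA n (MZ p v)) (L : KL p v h j K)
      (s : K.Fm R), K.IsForm s → ∀ i, x ∈ L.U i → ∀ hx : x ∉ Zs p v,
      ‖s i (L.e i x) (fun k => tau e (L.e i) x (ξ k))‖ ^ 2 * Real.exp (-K.φ i (L.e i x)) ≤
        C * ((K.dn s s ⟨x, hx⟩).re * (h e (e x)).det.re)

/-- **(B')** the volume measure in the charts of `X` (from `VolV`, by a countable covering by framed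
charts) -/
def BVolStmt : Prop :=
  ∀ (n R m : ℕ) (X : Type) [TopologicalSpace X] [T2Space X] [CompactSpace X]
    [ChartedSpace (Cm n) X] [IsManifold 𝓘(ℂ, Cm n) ω X] [MeasurableSpace X] [BorelSpace X]
    (w h ρ : Chart n X → Cm n → Matrix (Fin n) (Fin n) ℂ)
    (E : Type) [TopologicalSpace E] (p : E → X) (H : Type) [NormedAddCommGroup H]
    [InnerProductSpace ℂ H] [CompleteSpace H] (v : E → Chart n X → (Fin R → Cm n) → H)
    (_ : Hyp n R m X w h ρ E p H v) [Nonempty (MZ p v)] (μ : Measure (MZ p v))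
    (_ : VolV p v (Zs p v) h μ) (e : Chart n X), e ∈ atlas (Cm n) X → ∀ (U : Set X) (hU : IsOpen U)
    (hUe : U ⊆ e.source) (hUZ : ∀ x ∈ U, x ∉ Zs p v) (f : MZ p v → ℝ≥0∞), Measurable f →
    ∫⁻ x in {x | x.1 ∈ U}, f x ∂μ = ∫⁻ z in (rch e U hU hUe hUZ).target,
      f ((rch e U hU hUe hUZ).symm z) * ENNReal.ofReal (h e z).det.re

/-- **(C)** `s₀` is a smooth form, `∂_h s₀ = 0`, and its norm -/
def CStmt : Prop :=
  ∀ (n R m : ℕ) (X : Type) [TopologicalSpace X] [T2Space X] [CompactSpace X]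
    [ChartedSpace (Cm n) X] [IsManifold 𝓘(ℂ, Cm n) ω X] [MeasurableSpace X] [BorelSpace X]
    (w h ρ : Chart n X → Cm n → Matrix (Fin n) (Fin n) ℂ)
    (E : Type) [TopologicalSpace E] (p : E → X) (H : Type) [NormedAddCommGroup H]
    [InnerProductSpace ℂ H] [CompleteSpace H] (v : E → Chart n X → (Fin R → Cm n) → H)
    (_ : Hyp n R m X w h ρ E p H v) (γ : Cm R → H) (b₀ : Cm R) (r : ℝ) (N : Set X)
    (β : X → Cm R) (x₀ : X) (_ : Lf m p v γ b₀ r N β x₀) (f : Cm R → ℂ) (_ : ContDiff ℝ ∞ f)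
    (_ : HasCompactSupport f) (_ : tsupport f ⊆ ball b₀ r) (ℓ₀ : H →L[ℂ] ℂ)
    (j : ℕ) (K : KA n (MZ p v)) (L : KL p v h j K),
    K.IsForm (L.s0 m γ ℓ₀ N β f) ∧ K.Smooth (L.s0 m γ ℓ₀ N β f) ∧
    K.dh (L.s0 m γ ℓ₀ N β f) = 0 ∧
    (∀ x : MZ p v, x.1 ∉ N → K.dn (L.s0 m γ ℓ₀ N β f) (L.s0 m γ ℓ₀ N β f) x = 0) ∧
    ∀ x : MZ p v, x.1 ∈ N → (K.dn (L.s0 m γ ℓ₀ N β f) (L.s0 m γ ℓ₀ N β f) x).re =
      ‖f (β x.1)‖ ^ 2 * rat γ ℓ₀ (β x.1) ^ j * mF h β x.1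

/-- **(D)** the pairing -/
def DStmt : Prop :=
  ∀ (n r₁ m : ℕ) (X : Type) [TopologicalSpace X] [T2Space X] [CompactSpace X]
    [ChartedSpace (Cm n) X] [IsManifold 𝓘(ℂ, Cm n) ω X] [MeasurableSpace X] [BorelSpace X]
    (w h ρ : Chart n X → Cm n → Matrix (Fin n) (Fin n) ℂ)
    (E : Type) [TopologicalSpace E] (p : E → X) (H : Type) [NormedAddCommGroup H]
    [InnerProductSpace ℂ H] [CompleteSpace H] (v : E → Chart n X → (Fin (r₁ + 1) → Cm n) → H)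
    (_ : Hyp n (r₁ + 1) m X w h ρ E p H v) (γ : Cm (r₁ + 1) → H) (b₀ : Cm (r₁ + 1)) (r : ℝ)
    (N : Set X) (β : X → Cm (r₁ + 1)) (x₀ : X) (_ : Lf m p v γ b₀ r N β x₀)
    (f : Cm (r₁ + 1) → ℂ) (_ : ContDiff ℝ ∞ f) (_ : HasCompactSupport f)
    (_ : tsupport f ⊆ ball b₀ r) (ℓ₀ : H →L[ℂ] ℂ)
    (K' : Set (Cm (r₁ + 1))) (_ : IsCompact K') (_ : K' ⊆ ball b₀ r)
    (_ : ∀ b ∉ K', ∀ l, dzb l f b = 0)
    (c : ℝ) (_ : 0 < c) (_ : ∀ x ∈ N, β x ∈ K' → ∀ e : Chart n X, At e x →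
      (ρ e (e x) - (c : ℂ) • BB (fun z => β (e.symm z)) (e x)).PosSemidef)
    (D : ℝ) (_ : 0 ≤ D) (_ : ∀ b ∈ K', ∑ l, ‖dzb l f b‖ ^ 2 ≤ D)
    (Q : ℝ) (_ : 0 ≤ Q) (_ : ∀ b ∈ K', rat γ ℓ₀ b ≤ Q)
    (j : ℕ) (_ : 1 ≤ j) (K : KA n (MZ p v)) (L : KL p v h j K) (_ : K3Stmt n (MZ p v) K)
    (_ : ∀ i, ∀ z ∈ (K.e i).target, cHess (K.φ i) z = (j : ℂ) • ρ (L.e i) z)
    (μK : ℝ) (_ : 0 ≤ μK) (_ : ∫⁻ x in {x : MZ p v | x.1 ∈ N ∧ β x.1 ∈ K'}, ENNReal.ofReal (mF h β x.1) ∂K.μ ≤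
      ENNReal.ofReal μK) (τ : K.Fm r₁), K.Test τ →
    ‖K.ip τ (K.S (L.s0 m γ ℓ₀ N β f))‖ ^ 2 ≤ (D / (j * c) * Q ^ j * μK) * ∫ x, K.dA τ x ∂K.μ

/-- **(E)** the mass of the leaf charts -/
def EStmt : Prop :=
  ∀ (n R m : ℕ) (X : Type) [TopologicalSpace X] [T2Space X] [CompactSpace X]
    [ChartedSpace (Cm n) X] [IsManifold 𝓘(ℂ, Cm n) ω X] [MeasurableSpace X] [BorelSpace X]
    (w h ρ : Chart n X → Cm n → Matrix (Fin n) (Fin n) ℂ)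
    (E : Type) [TopologicalSpace E] (p : E → X) (H : Type) [NormedAddCommGroup H]
    [InnerProductSpace ℂ H] [CompleteSpace H] (v : E → Chart n X → (Fin R → Cm n) → H)
    (_ : Hyp n R m X w h ρ E p H v) (γ : Cm R → H) (b₀ : Cm R) (r : ℝ) (N : Set X)
    (β : X → Cm R) (x₀ : X) (_ : Lf m p v γ b₀ r N β x₀)
    (K' : Set (Cm R)) (_ : IsCompact K') (_ : K' ⊆ ball b₀ r)
    (c : ℝ) (_ : 0 < c) (_ : ∀ x ∈ N, β x ∈ K' → ∀ e : Chart n X, At e x →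
      (ρ e (e x) - (c : ℂ) • BB (fun z => β (e.symm z)) (e x)).PosSemidef)
    [Nonempty (MZ p v)] (μ : Measure (MZ p v)) (_ : VolV p v (Zs p v) h μ),
    ∫⁻ x in {x : MZ p v | x.1 ∈ N ∧ β x.1 ∈ K'}, ENNReal.ofReal (mF h β x.1) ∂μ < ⊤

end Vale.Agent.P284.H553.K8
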