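import Vale.Agent.P284.H553.K8.Geo2
import Vale.Agent.P284.H553.LB9
import Vale.Agent.P284.H335.Dec

/-!
# P284 (helper553), K8: what is used of the framed charts of `X \ Zs p v`
-/

open scoped Manifold ContDiff Topology ComplexConjugate ComplexOrder ENNReal InnerProductSpace
open Filter Set Metric MeasureTheory

noncomputable section

namespace Vale.Agent.P284.H553.K8

open Vale.Agent.P272.K Vale.Agent.P284.H573 Vale.Agent.P284.H395 Vale.Agent.P284.H998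
  Vale.Agent.P284.H998.U Vale.Agent.P284.H553.LB Vale.Agent.P284.H608.K Vale.Agent.P284.H837
  Vale.Agent.P284.H894 Vale.Agent.P284.H894.G

section
variable {n R : ℕ} {X E : Type} [TopologicalSpace X] [ChartedSpace (Cm n) X] [TopologicalSpace E]
  [MeasurableSpace X] {H : Type} [NormedAddCommGroup H] [InnerProductSpace ℂ H]

/-- The framed charts of `K`: the chart `e i` of `X` on the open set `U i`, a local section `τ i` of
`p`, and the frame `(ℓ i (v ξ))^j` of the line bundle. -/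
structure KL (p : E → X) (v : E → Chart n X → (Fin R → Cm n) → H)
    (h : Chart n X → Cm n → Matrix (Fin n) (Fin n) ℂ) (j : ℕ) (K : KA n (MZ p v)) where
  e : K.I → Chart n X
  U : K.I → Set X
  τ : K.I → X → E
  ξ : K.I → Fin R → Cm n
  ℓ : K.I → H →L[ℂ] ℂ
  he : ∀ i, e i ∈ atlas (Cm n) X
  hU : ∀ i, IsOpen (U i)
  hUe : ∀ i, U i ⊆ (e i).source
  hUZ : ∀ i, ∀ x ∈ U i, x ∉ Zs p v
  hτ : ∀ i, ∀ x ∈ U i, p (τ i x) = x
  hτc : ∀ i, ContinuousOn (τ i) (U i)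
  hne : ∀ i, ∀ x ∈ U i, ℓ i (v (τ i x) (e i) (ξ i)) ≠ 0
  src : ∀ i, (K.e i).source = {x | x.1 ∈ U i}
  tgt : ∀ i, (K.e i).target = (e i).target ∩ (e i).symm ⁻¹' U i
  app : ∀ i x, K.e i x = e i x.1
  symm : ∀ i, ∀ z ∈ (K.e i).target, ((K.e i).symm z).1 = (e i).symm z
  w : ∀ i, ∀ z ∈ (K.e i).target, K.w i z = h (e i) z
  φ : ∀ i, ∀ z ∈ (K.e i).target, K.φ i z =
    j * (Real.log (‖v (τ i ((e i).symm z)) (e i) (ξ i)‖ ^ 2) -
      Real.log (‖ℓ i (v (τ i ((e i).symm z)) (e i) (ξ i))‖ ^ 2))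
  a : ∀ i i', ∀ z ∈ (K.e i).target, (e i).symm z ∈ U i' → K.a i i' z =
    (ℓ i' (v (τ i' ((e i).symm z)) (e i) (ξ i)) / ℓ i (v (τ i ((e i).symm z)) (e i) (ξ i))) ^ j

end

section
variable {n R m : ℕ} {X E : Type} [TopologicalSpace X] [ChartedSpace (Cm n) X] [TopologicalSpace E]
  {H : Type} [NormedAddCommGroup H] [InnerProductSpace ℂ H]
  {p : E → X} {v : E → Chart n X → (Fin R → Cm n) → H}

/-- The values of `v` over a point of `X` lie on lines, with the same coefficients. -/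
theorem line_at {Γ : Type} [Group Γ] [MulAction Γ E] {s : ℕ} (hG : IsGalois Γ p) (heqv : Eqv Γ p v)
    (hD : ∀ y e, At e (p y) → NZ p v y → DecAt p R m s v y e) {x : X} (hx : x ∉ Zs p v)
    {e : Chart n X} (he : At e x) :
    ∃ (c : (Fin R → Cm n) → ℂ) (G : E → H), (∃ ξ, c ξ ≠ 0) ∧ (∃ a : ℝ, 0 < a ∧ ∀ y, p y = x →
      ‖G y‖ = a) ∧ (∀ y, p y = x → ∀ ξ, v y e ξ = c ξ • G y) := by
  obtain ⟨y₀, hy₀⟩ := hG.surj x
  subst hy₀
  have hnz := nz_of_notMem hx (rfl : p y₀ = p y₀)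
  obtain ⟨A, g, -, -, hg0, ⟨ξ₀, hξ₀⟩, hv', -⟩ := hD y₀ e he hnz
  have h1 := hv'.self_of_nhds
  have h2 : ∀ y, p y = p y₀ → ∃ G : H, ‖G‖ = ‖g (e (p y₀))‖ ∧ ∀ ξ, v y e ξ =
      (A (e (p y₀)) * Matrix.of fun k j => ξ j k).det ^ m • G := by
    intro y hy
    obtain ⟨k, rfl⟩ := (hG.orb y₀ y).1 hy.symm
    obtain ⟨U, hU⟩ := heqv k
    refine ⟨U (g (e (p y₀))), U.norm_map _, fun ξ => ?_⟩
    rw [hU y₀ e he ξ, h1 ξ, map_smul]
  choose! G hG1 hG2 using h2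
  refine ⟨fun ξ => (A (e (p y₀)) * Matrix.of fun k j => ξ j k).det ^ m, G,
    ⟨ξ₀, pow_ne_zero m hξ₀⟩, ⟨‖g (e (p y₀))‖, norm_pos_iff.2 hg0, hG1⟩, hG2⟩

end

end Vale.Agent.P284.H553.K8
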