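import Vale.Agent.P284.H553.LB4
import Vale.Agent.P271.H408.Ext

/-!
# P284 (helper553), K8c: a section over the good points which is locally square integrable is bounded
-/

open scoped Manifold ContDiff Topology ENNReal
open Filter Set Metric MeasureTheory

noncomputable section

namespace Vale.Agent.P284.H553.K8

open Vale.Agent.P272.K Vale.Agent.P284.H573 Vale.Agent.P284.H248 Vale.Agent.P284.H553.LB

variable {n R m k : ℕ} {X E : Type} [TopologicalSpace X] [ChartedSpace (Cm n) X]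
  [TopologicalSpace E] {H : Type} [NormedAddCommGroup H] [InnerProductSpace ℂ H] [CompleteSpace H]
  {p : E → X} {v : E → Chart n X → (Fin R → Cm n) → H} {s : X → Chart n X → (Fin R → Cm n) → ℂ}

/-- the function `s` in a chart is analytic at the good points -/
theorem an_of_nf {x : X} {e : Chart n X} (he : At e x)
    (h : ∃ (y : E) (b : Cm n → Cm R) (γ : Cm R → H)
      (S : Cm n → ℂ), p y = x ∧ IsNF m p v y e b γ ∧ AnalyticAt ℂ S (e x) ∧
      ∀ᶠ x' in 𝓝 x, ∀ ξ, s x' e ξ = (DM b (e x') ξ).det ^ k * S (e x')) (ξ : Fin R → Cm n) :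
    AnalyticAt ℂ (fun z => s (e.symm z) e ξ) (e x) := by
  obtain ⟨y, b, γ, S, hy, hnf, hS, hev⟩ := h
  have hb : AnalyticAt ℂ b (e x) := by
    have := hnf.ban
    rwa [hy] at this
  have h1 : AnalyticAt ℂ (fun z => (DM b z ξ).det ^ k * S z) (e x) := by
    refine AnalyticAt.mul (AnalyticAt.pow ?_ k) hS
    have hd : ∀ i j, AnalyticAt ℂ (fun z => DM b z ξ i j) (e x) := by
      intro i j
      have h2 : AnalyticAt ℂ (fun z => fderiv ℂ b z (ξ j)) (e x) :=
        ((ContinuousLinearMap.apply ℂ (Cm R) (ξ j)).analyticAt _).comp hb.fderiv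
      exact analyticAt_pi_iff.1 h2 i
    simp only [Matrix.det_apply]
    refine Finset.analyticAt_fun_sum _ fun σ _ => ?_
    refine AnalyticAt.const_smul ?_
    exact Finset.analyticAt_fun_prod _ fun i _ => hd _ _
  refine h1.congr ?_
  have h2 := ev_chart he hev
  filter_upwards [h2, he.nhds_target] with z hz hzt
  rw [hz ξ, e.right_inv hzt]

theorem bdd_of_L2 (hp : IsCoveringMap p) (hT : ThinC n (GoodX p R m v))
    (hnf : ∀ x ∈ GoodX p R m v, ∀ e, At e x → ∃ (y : E) (b : Cm n → Cm R) (γ : Cm R → H)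
      (S : Cm n → ℂ), p y = x ∧ IsNF m p v y e b γ ∧ AnalyticAt ℂ S (e x) ∧
      ∀ᶠ x' in 𝓝 x, ∀ ξ, s x' e ξ = (DM b (e x') ξ).det ^ k * S (e x'))
    {x : X} {e : Chart n X} (he : At e x) (ξ : Fin R → Cm n)
    (hL : ∃ r > 0, ∫⁻ z in ball (e x) r ∩ {z | e.symm z ∈ GoodX p R m v},
      ‖s (e.symm z) e ξ‖ₑ ^ 2 ≠ ⊤) :
    ∃ C : ℝ, ∀ᶠ x' in 𝓝 x, x' ∈ GoodX p R m v → ‖s x' e ξ‖ ≤ C := by
  obtain ⟨h, hh, hne, hbad⟩ := hT x e he
  obtain ⟨r, hr, hLr⟩ := hL
  -- a small ball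
  have h0 : ∀ᶠ z in 𝓝 (e x), z ∈ e.target ∧ AnalyticAt ℂ h z ∧
      (e.symm z ∉ GoodX p R m v → h z = 0) := by
    filter_upwards [he.nhds_target, hh.eventually_analyticAt, ev_chart he hbad] with z h1 h2 h3
    refine ⟨h1, h2, fun h4 => ?_⟩
    have := h3 h4
    rwa [e.right_inv h1] at this
  obtain ⟨ρ₀, hρ₀, hball⟩ := Metric.eventually_nhds_iff_ball.1 h0
  set ρ := min ρ₀ r with hρ
  have hρp : 0 < ρ := lt_min hρ₀ hr
  set U := ball (e x) ρ with hU
  have hUb : ∀ z ∈ U, z ∈ e.target ∧ AnalyticAt ℂ h z ∧ (e.symm z ∉ GoodX p R m v → h z = 0) :=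
    fun z hz => hball z (ball_subset_ball (min_le_left _ _) hz)
  have hgood : ∀ z ∈ U, h z ≠ 0 → e.symm z ∈ GoodX p R m v := fun z hz h1 => by
    by_contra h2
    exact h1 ((hUb z hz).2.2 h2)
  have hfreq : ∀ q ∈ U, ∃ᶠ z in 𝓝 q, h z ≠ 0 := by
    intro q hq h1
    simp only [not_not] at h1
    have h2 : AnalyticOnNhd ℂ h U := fun z hz => (hUb z hz).2.1
    have h3 := h2.eqOn_zero_of_preconnected_of_eventuallyEq_zero
      (convex_ball _ _).isPreconnected hq h1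
    exact hne (mem_of_superset (isOpen_ball.mem_nhds (mem_ball_self hρp)) fun z hz => h3 hz)
  set f : Cm n → ℂ := fun z => s (e.symm z) e ξ with hf
  have hfan : ∀ z ∈ U, e.symm z ∈ GoodX p R m v → AnalyticAt ℂ f z := by
    intro z hz hg
    have hat : At e (e.symm z) := At.of_target he.1 (hUb z hz).1
    have h1 := an_of_nf hat (hnf _ hg e hat) ξ
    rwa [e.right_inv (hUb z hz).1] at h1
  obtain ⟨F, hF, hFf⟩ := Vale.Agent.P271.H408.ext_L2 (U := U) isOpen_ball (h := h) (f := f)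
    (fun z hz => (hUb z hz).2.1.differentiableAt.differentiableWithinAt) hfreq
    (fun z hz => (hfan z hz.1 (hgood z hz.1 hz.2)).differentiableAt.differentiableWithinAt) (by
      intro q hq
      obtain ⟨r', hr', hsub⟩ := Metric.isOpen_iff.1 isOpen_ball q hq
      refine ⟨r', hr', ne_top_of_le_ne_top hLr (lintegral_mono_set ?_)⟩
      intro z hz
      have hzU : z ∈ U := hsub hz.1
      exact ⟨ball_subset_ball (min_le_right _ _) hzU, hgood z hzU hz.2⟩)
  have hFc : ∀ z ∈ U, ContinuousAt F z := fun z hz =>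
    (hF.differentiableAt (isOpen_ball.mem_nhds hz)).continuousAt
  -- equality at all good points
  have heq : ∀ z ∈ U, e.symm z ∈ GoodX p R m v → f z = F z := by
    intro z hz hg
    by_contra hcon
    have h1 : ∀ᶠ z' in 𝓝 z, f z' - F z' ≠ 0 :=
      ((hfan z hz hg).continuousAt.sub (hFc z hz)).eventually_ne (sub_ne_zero.2 hcon)
    obtain ⟨z', h2, h3, h4⟩ := ((hfreq z hz).and_eventually
      (h1.and (isOpen_ball.mem_nhds hz))).exists
    exact h3 (by rw [hFf z' h4 h2, sub_self])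
  have hbd : ∀ᶠ z in 𝓝 (e x), ‖F z‖ < ‖F (e x)‖ + 1 :=
    (hFc _ (mem_ball_self hρp)).norm.eventually_lt continuousAt_const (by simp)
  refine ⟨‖F (e x)‖ + 1, ?_⟩
  have hc : Tendsto e (𝓝 x) (𝓝 (e x)) := e.continuousAt he.2
  filter_upwards [hc.eventually hbd, hc.eventually (isOpen_ball.mem_nhds (mem_ball_self hρp)),
    ev_at he] with x' h1 h2 h3 hg
  have h4 := heq (e x') h2 (by rw [h3.left_inv]; exact hg)
  rw [hf] at h4
  simp only [h3.left_inv] at h4
  rw [h4]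
  exact h1.le

/-- **K8c** -/
theorem lsec_of_L2 (hp : IsCoveringMap p) (hT : ThinC n (GoodX p R m v))
    (hnf : ∀ x ∈ GoodX p R m v, ∀ e, At e x → ∃ (y : E) (b : Cm n → Cm R) (γ : Cm R → H)
      (S : Cm n → ℂ), p y = x ∧ IsNF m p v y e b γ ∧ AnalyticAt ℂ S (e x) ∧
      ∀ᶠ x' in 𝓝 x, ∀ ξ, s x' e ξ = (DM b (e x') ξ).det ^ k * S (e x'))
    (hch : ∀ x ∈ GoodX p R m v, ∀ e e', At e x → At e' x → ∀ ξ, s x e ξ =
      s x e' (fun i => fderiv ℂ (fun z => e' (e.symm z)) (e x) (ξ i)))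
    (hL : ∀ x e, At e x → ∀ ξ, ∃ r > 0, ∫⁻ z in ball (e x) r ∩ {z | e.symm z ∈ GoodX p R m v},
      ‖s (e.symm z) e ξ‖ₑ ^ 2 ≠ ⊤) : LSec p R m k v s :=
  ⟨hnf, hch, fun x e he ξ => bdd_of_L2 hp hT hnf he ξ (hL x e he ξ)⟩

end Vale.Agent.P284.H553.K8
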