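import Vale.Agent.P271.H408.Mean
import Vale.Agent.P272.K.Stmt
import Mathlib.Analysis.Complex.Liouville
import Mathlib.Analysis.Normed.Module.FiniteDimension

/-!
# P284 (helper553), K8d: `L²` convergence of holomorphic functions gives convergence of the `1`-jets
-/

open scoped Topology ENNReal
open Filter Set Metric MeasureTheory

noncomputable section

namespace Vale.Agent.P284.H553.K8

open Vale.Agent.P272.K

variable {n R : ℕ}

/-- Cauchy's estimate for the derivative -/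
theorem fderiv_le_sup {f : Cm n → ℂ} {z : Cm n} {r C : ℝ} (hr : 0 < r) (hC : 0 ≤ C)
    (hf : DifferentiableOn ℂ f (ball z r)) (hb : ∀ w ∈ ball z r, ‖f w‖ ≤ C) :
    ‖fderiv ℂ f z‖ ≤ 2 * C / r := by
  refine ContinuousLinearMap.opNorm_le_bound _ (by positivity) fun v => ?_
  by_cases hv : v = 0
  · simp [hv]
  have hv0 : 0 < ‖v‖ := norm_pos_iff.2 hv
  set ρ : ℝ := r / (2 * ‖v‖) with hρ
  have hρ0 : 0 < ρ := by positivity
  have hin : ∀ t ∈ closedBall (0 : ℂ) ρ, z + t • v ∈ ball z r := by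
    intro t ht
    rw [mem_closedBall_zero_iff] at ht
    rw [mem_ball, dist_eq_norm, add_sub_cancel_left, norm_smul]
    calc ‖t‖ * ‖v‖ ≤ ρ * ‖v‖ := by gcongr
      _ = r / 2 := by rw [hρ]; field_simp
      _ < r := by linarith
  have hd : DifferentiableOn ℂ (fun t : ℂ => f (z + t • v)) (closedBall 0 ρ) :=
    hf.comp (by fun_prop) fun t ht => hin t ht
  have h1 : DiffContOnCl ℂ (fun t : ℂ => f (z + t • v)) (ball (0 : ℂ) ρ) := by
    apply DifferentiableOn.diffContOnCl
    rw [closure_ball _ hρ0.ne']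
    exact hd
  have h2 : ‖deriv (fun t : ℂ => f (z + t • v)) 0‖ ≤ C / ρ :=
    Complex.norm_deriv_le_of_forall_mem_sphere_norm_le hρ0 h1 fun t ht =>
      hb _ (hin t (sphere_subset_closedBall ht))
  have h3 : deriv (fun t : ℂ => f (z + t • v)) 0 = fderiv ℂ f z v := by
    have h4 : HasFDerivAt f (fderiv ℂ f z) (z + (0 : ℂ) • v) := by
      rw [zero_smul, add_zero]
      exact (hf.differentiableAt (ball_mem_nhds z hr)).hasFDerivAt
    have h5 : HasDerivAt (fun t : ℂ => z + t • v) v 0 := by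
      simpa using ((hasDerivAt_id (0 : ℂ)).smul_const v).const_add z
    exact (h4.comp_hasDerivAt 0 h5).deriv
  rw [h3] at h2
  refine h2.trans (le_of_eq ?_)
  rw [hρ]
  field_simp

/-- value estimate, square version -/
theorem val_sq_le {f : Cm n → ℂ} {z : Cm n} {r : ℝ} (hf : DifferentiableOn ℂ f (ball z r)) :
    ‖f z‖ₑ ^ 2 * volume (ball z r) ≤ ∫⁻ w in ball z r, ‖f w‖ₑ ^ 2 := by
  have h := Vale.Agent.P271.H408.enorm_mul_volume_le (hf.pow 2)
  simpa [enorm_pow] using h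

/-- the values on a smaller ball are controlled by the `L²` norm -/
theorem sup_le_L2 {z : Cm n} {r : ℝ} (hr : 0 < r) {f : ℕ → Cm n → ℂ}
    (hf : ∀ j, DifferentiableOn ℂ (f j) (ball z r))
    (hlim : Tendsto (fun j => ∫⁻ w in ball z r, ‖f j w‖ₑ ^ 2) atTop (𝓝 0)) {ε : ℝ} (hε : 0 < ε) :
    ∀ᶠ j in atTop, ∀ w ∈ ball z (r / 2), ‖f j w‖ ≤ ε := by
  set V := volume (ball z (r / 2)) with hV
  have hV0 : V ≠ 0 := (measure_ball_pos _ _ (by positivity)).ne'
  have hVt : V ≠ ⊤ := measure_ball_lt_top.ne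
  have hpos : 0 < ENNReal.ofReal ε ^ 2 * V := by
    refine ENNReal.mul_pos (pow_ne_zero 2 ?_) hV0
    exact (ENNReal.ofReal_pos.2 hε).ne'
  have h1 : ∀ᶠ j in atTop, ∫⁻ w in ball z r, ‖f j w‖ₑ ^ 2 < ENNReal.ofReal ε ^ 2 * V :=
    hlim.eventually (gt_mem_nhds hpos)
  filter_upwards [h1] with j hj w hw
  have hsub : ball w (r / 2) ⊆ ball z r := by
    intro u hu
    rw [mem_ball] at hu hw ⊢
    calc dist u z ≤ dist u w + dist w z := dist_triangle _ _ _
      _ < r / 2 + r / 2 := by linarith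
      _ = r := by ring
  have h2 := val_sq_le ((hf j).mono hsub)
  have h3 : volume (ball w (r / 2)) = V := by
    rw [hV, Measure.addHaar_ball_center, Measure.addHaar_ball_center volume z]
  rw [h3] at h2
  have h4 : ‖f j w‖ₑ ^ 2 * V < ENNReal.ofReal ε ^ 2 * V :=
    (h2.trans (lintegral_mono_set hsub)).trans_lt hj
  have h5 : ‖f j w‖ₑ ^ 2 < ENNReal.ofReal ε ^ 2 := lt_of_mul_lt_mul_right' h4
  have h6 : ‖f j w‖ₑ < ENNReal.ofReal ε := lt_of_pow_lt_pow_left' 2 h5
  rw [← ofReal_norm, ENNReal.ofReal_lt_ofReal_iff hε] at h6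
  exact h6.le

/-- `L²` convergence implies convergence of the value and of the derivative at the centre -/
theorem jet_lim {z : Cm n} {r : ℝ} (hr : 0 < r) {f : ℕ → Cm n → ℂ}
    (hf : ∀ j, DifferentiableOn ℂ (f j) (ball z r))
    (hlim : Tendsto (fun j => ∫⁻ w in ball z r, ‖f j w‖ₑ ^ 2) atTop (𝓝 0)) :
    Tendsto (fun j => f j z) atTop (𝓝 0) ∧ Tendsto (fun j => fderiv ℂ (f j) z) atTop (𝓝 0) := by
  have hsub : ball z (r / 2) ⊆ ball z r := ball_subset_ball (by linarith)
  constructor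
  · rw [tendsto_zero_iff_norm_tendsto_zero, Metric.tendsto_atTop']
    intro ε hε
    have h1 := sup_le_L2 hr hf hlim (half_pos hε)
    obtain ⟨N, hN⟩ := eventually_atTop.1 h1
    refine ⟨N, fun j hj => ?_⟩
    rw [Real.dist_eq, sub_zero, abs_of_nonneg (norm_nonneg _)]
    exact (hN j hj.le z (mem_ball_self (by positivity))).trans_lt (by linarith)
  · rw [tendsto_zero_iff_norm_tendsto_zero, Metric.tendsto_atTop']
    intro ε hε
    have hε' : 0 < ε * r / 8 := by positivity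
    have h1 := sup_le_L2 hr hf hlim hε'
    obtain ⟨N, hN⟩ := eventually_atTop.1 h1
    refine ⟨N, fun j hj => ?_⟩
    rw [Real.dist_eq, sub_zero, abs_of_nonneg (norm_nonneg _)]
    have h2 := fderiv_le_sup (half_pos hr) hε'.le ((hf j).mono hsub) (hN j hj.le)
    refine h2.trans_lt ?_
    have : 2 * (ε * r / 8) / (r / 2) = ε / 2 := by field_simp; ring
    rw [this]
    linarith

/-- **K8d** -/
theorem jets {b : Cm n → Cm R} {z : Cm n} {r : ℝ} (hr : 0 < r)
    (hb : DifferentiableOn ℂ b (ball z r)) (hs : Function.Surjective (fderiv ℂ b z))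
    (f : ℕ → Fin (R + 1) → Cm n → ℂ) (hf : ∀ j a, DifferentiableOn ℂ (f j a) (ball z r))
    (hlim : ∀ a, Tendsto (fun j => ∫⁻ w in ball z r,
      ‖f j a w - (Fin.cons 1 (b w) : Fin (R + 1) → ℂ) a‖ₑ ^ 2) atTop (𝓝 0)) :
    ∀ᶠ j in atTop, f j 0 z ≠ 0 ∧ LinearIndependent ℂ fun a : Fin R =>
      fderiv ℂ (fun w => f j a.succ w / f j 0 w) z := by
  have hzb : z ∈ ball z r := mem_ball_self hr
  have hbd : DifferentiableAt ℂ b z := hb.differentiableAt (isOpen_ball.mem_nhds hzb)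
  have hc : ∀ a, DifferentiableOn ℂ (fun w => (Fin.cons 1 (b w) : Fin (R + 1) → ℂ) a)
      (ball z r) := by
    intro a
    refine Fin.cases ?_ (fun a => ?_) a
    · exact differentiableOn_const _
    · exact differentiableOn_pi.1 hb a
  have hJ := fun a => jet_lim hr (f := fun j w => f j a w - (Fin.cons 1 (b w) : Fin (R + 1) → ℂ) a)
    (fun j => (hf j a).sub (hc a)) (hlim a)
  -- values
  have hv : ∀ a, Tendsto (fun j => f j a z) atTop (𝓝 ((Fin.cons 1 (b z) : Fin (R + 1) → ℂ) a)) := by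
    intro a
    have := (hJ a).1.add_const ((Fin.cons 1 (b z) : Fin (R + 1) → ℂ) a)
    simpa using this
  have hd : ∀ a, Tendsto (fun j => fderiv ℂ (f j a) z) atTop
      (𝓝 (fderiv ℂ (fun w => (Fin.cons 1 (b w) : Fin (R + 1) → ℂ) a) z)) := by
    intro a
    have h1 := (hJ a).2.add_const (fderiv ℂ (fun w => (Fin.cons 1 (b w) : Fin (R + 1) → ℂ) a) z)
    rw [zero_add] at h1
    refine h1.congr fun j => ?_
    rw [fderiv_fun_sub ((hf j a).differentiableAt (isOpen_ball.mem_nhds hzb))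
      ((hc a).differentiableAt (isOpen_ball.mem_nhds hzb)), sub_add_cancel]
  have hv0 : Tendsto (fun j => f j 0 z) atTop (𝓝 1) := hv 0
  have hne : ∀ᶠ j in atTop, f j 0 z ≠ 0 := hv0.eventually_ne one_ne_zero
  -- the derivative of the quotient
  have hq : ∀ᶠ j in atTop, ∀ a : Fin R, fderiv ℂ (fun w => f j a.succ w / f j 0 w) z =
      ((f j 0 z) ^ 2)⁻¹ • (f j 0 z • fderiv ℂ (f j a.succ) z - f j a.succ z • fderiv ℂ (f j 0) z) := by
    filter_upwards [hne] with j hj a
    have h1 := ((hf j a.succ).differentiableAt (isOpen_ball.mem_nhds hzb)).hasFDerivAt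
    have h2 := ((hf j 0).differentiableAt (isOpen_ball.mem_nhds hzb)).hasFDerivAt
    have h5 : HasFDerivAt (fun w => (f j 0 w)⁻¹) ((-((f j 0 z) ^ 2)⁻¹) • fderiv ℂ (f j 0) z) z :=
      (hasDerivAt_inv hj).comp_hasFDerivAt z h2
    have h3 := h1.mul h5
    have h4 : (fun w => f j a.succ w / f j 0 w) = f j a.succ * fun w => (f j 0 w)⁻¹ := by
      funext w
      simp [div_eq_mul_inv]
    rw [h4, h3.fderiv]
    ext v
    simp
    field_simp
    ring
  have hlimq : Tendsto (fun j => fun a : Fin R =>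
      ((f j 0 z) ^ 2)⁻¹ • (f j 0 z • fderiv ℂ (f j a.succ) z - f j a.succ z • fderiv ℂ (f j 0) z))
      atTop (𝓝 fun a : Fin R => fderiv ℂ (fun w => b w a) z) := by
    refine tendsto_pi_nhds.2 fun a => ?_
    have e0 : fderiv ℂ (fun w => (Fin.cons 1 (b w) : Fin (R + 1) → ℂ) 0) z = 0 := by
      have : (fun w => (Fin.cons 1 (b w) : Fin (R + 1) → ℂ) 0) = fun _ => (1 : ℂ) := rfl
      rw [this, fderiv_fun_const]
      rfl
    have hd0 : Tendsto (fun j => fderiv ℂ (f j 0) z) atTop (𝓝 0) := by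
      have := hd 0
      rwa [e0] at this
    have h1 := (((hv0.pow 2).inv₀ (by norm_num)).smul
      ((hv0.smul (hd a.succ)).sub ((hv a.succ).smul hd0)))
    have e1 : ((1 : ℂ) ^ 2)⁻¹ • ((1 : ℂ) • fderiv ℂ (fun w => b w a) z - b z a •
          (0 : Cm n →L[ℂ] ℂ)) = fderiv ℂ (fun w => b w a) z := by
      ext v
      simp
    rw [← e1]
    exact h1
  have hli : LinearIndependent ℂ fun a : Fin R => fderiv ℂ (fun w => b w a) z := by
    rw [Fintype.linearIndependent_iff]
    intro c hc0 a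
    obtain ⟨v, hv⟩ := hs (Pi.single a 1)
    have h1 := congrArg (fun L : Cm n →L[ℂ] ℂ => L v) hc0
    simp only [FunLike.coe_sum, Finset.sum_apply, FunLike.coe_smul,
      Pi.smul_apply, smul_eq_mul, zero_apply] at h1
    have h2 : ∀ i, fderiv ℂ (fun w => b w i) z v = (Pi.single a 1 : Cm R) i := by
      intro i
      rw [← hv, fderiv_apply (𝕜 := ℂ) hbd i]
      rfl
    simp only [h2, Pi.single_apply, mul_ite, mul_one, mul_zero, Finset.sum_ite_eq',
      Finset.mem_univ, if_true] at h1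
    exact h1
  filter_upwards [hne, hq, hlimq.eventually hli.eventually] with j h1 h2 h3
  refine ⟨h1, ?_⟩
  have h4 : (fun a : Fin R => fderiv ℂ (fun w => f j a.succ w / f j 0 w) z) = fun a : Fin R =>
      ((f j 0 z) ^ 2)⁻¹ • (f j 0 z • fderiv ℂ (f j a.succ) z - f j a.succ z • fderiv ℂ (f j 0) z) :=
    funext h2
  rw [h4]
  exact h3

end Vale.Agent.P284.H553.K8
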