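import Vale.Agent.P284.H553.K8.Jet
import Vale.Agent.P284.H174.GoodD

/-!
# P284 (helper553), K8: the sections with independent ratios, from the output of the engine
-/

open scoped Manifold ContDiff Topology ComplexConjugate ComplexOrder ENNReal InnerProductSpace
open Filter Set Metric MeasureTheory

noncomputable section

namespace Vale.Agent.P284.H553.K8

open Vale.Agent.P272.K Vale.Agent.P284.H573 Vale.Agent.P284.H395 Vale.Agent.P284.H998
  Vale.Agent.P284.H998.U Vale.Agent.P284.H553.LB Vale.Agent.P284.H608.K Vale.Agent.P284.H837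
  Vale.Agent.P284.H894 Vale.Agent.P284.H894.G Vale.Agent.P284.H47.K Vale.Agent.P284.H213.KL
  Vale.Agent.P284.H286.K

section
variable {n R m : ℕ} {X E : Type} [TopologicalSpace X] [T2Space X] [CompactSpace X]
  [ChartedSpace (Cm n) X] [TopologicalSpace E]
  {H : Type} [NormedAddCommGroup H] [InnerProductSpace ℂ H] [CompleteSpace H]
  {p : E → X} {v : E → Chart n X → (Fin R → Cm n) → H} [IsManifold 𝓘(ℂ, Cm n) ω X]
  [MeasurableSpace X] [BorelSpace X]
  {w h ρ : Chart n X → Cm n → Matrix (Fin n) (Fin n) ℂ}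
  {γ : Cm R → H} {b₀ : Cm R} {r : ℝ} {N : Set X} {β : X → Cm R} {x₀ : X}

/-- The output of the engine, for the exponent `J` and the function `P_a`, with the error `C₁`. -/
structure OutAt (m : ℕ) (p : E → X) (v : E → Chart n X → (Fin R → Cm n) → H)
    (h ρ : Chart n X → Cm n → Matrix (Fin n) (Fin n) ℂ) (γ : Cm R → H) (b₀ : Cm R) (r : ℝ)
    (hr : 0 < r) (N : Set X) (β : X → Cm R) [Nonempty (MZ p v)] (J : ℕ) (a : Fin (R + 1))
    (C₁ : ℝ) (K : KA n (MZ p v)) (L : KL p v h J K) (s : K.Fm R) : Prop where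
  vol : VolV p v (Zs p v) h K.μ
  hess : ∀ i, ∀ z ∈ (K.e i).target, cHess (K.φ i) z = (J : ℂ) • ρ (L.e i) z
  form : K.IsForm s
  hol : K.Hol s
  ker : ∀ i, ∀ z ∈ (K.e i).target, Ad (K.w i z) (cHess (K.φ i) z) (s i z) = 0
  form₀ : K.IsForm (L.s0 m γ (l0 γ b₀) N β (ff b₀ r hr a))
  smooth₀ : K.Smooth (L.s0 m γ (l0 γ b₀) N β (ff b₀ r hr a))
  fin₀ : K.nl (L.s0 m γ (l0 γ b₀) N β (ff b₀ r hr a)) < ⊤
  est : K.nl (s - L.s0 m γ (l0 γ b₀) N β (ff b₀ r hr a)) ≤ ENNReal.ofReal C₁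

omit [T2Space X] [CompactSpace X] [CompleteSpace H] [BorelSpace X] [IsManifold 𝓘(ℂ, Cm n) ω X] in
theorem OutAt.smooth [Nonempty (MZ p v)] {hr : 0 < r} {J : ℕ} {a : Fin (R + 1)} {C₁ : ℝ}
    {K : KA n (MZ p v)} {L : KL p v h J K} {s : K.Fm R}
    (o : OutAt m p v h ρ γ b₀ r hr N β J a C₁ K L s) : K.Smooth s := smooth_of_hol o.hol

omit [CompactSpace X] [CompleteSpace H] [IsManifold 𝓘(ℂ, Cm n) ω X] in
theorem OutAt.fin [Nonempty (MZ p v)] {hr : 0 < r} {J : ℕ} {a : Fin (R + 1)} {C₁ : ℝ}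
    {K : KA n (MZ p v)} {L : KL p v h J K} {s : K.Fm R} (hK1 : K1Stmt)
    (hK3 : K3Stmt n (MZ p v) K)
    (o : OutAt m p v h ρ γ b₀ r hr N β J a C₁ K L s) : K.nl s < ⊤ := by
  have h1 := nl_young hK1 hK3 (form_sub o.form o.form₀)
    (smooth_sub o.smooth o.smooth₀) o.form₀ o.smooth₀ one_pos
  rw [sub_add_cancel] at h1
  refine h1.trans_lt (ENNReal.add_lt_top.2 ⟨?_, ?_⟩)
  · exact ENNReal.mul_lt_top ENNReal.ofReal_lt_top (o.est.trans_lt ENNReal.ofReal_lt_top)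
  · exact ENNReal.mul_lt_top ENNReal.ofReal_lt_top o.fin₀

/-- **the sections** -/
theorem fin_of_out {Γ : Type} [Group Γ] [MulAction Γ E] [PreconnectedSpace E] (hB : BStmt)
    (hBV : BVolStmt) (hy : Hyp n R m X w h ρ E p H v) [Nonempty (MZ p v)] (hK1 : K1Stmt)
    (hK3 : ∀ K : KA n (MZ p v), K3Stmt n (MZ p v) K) (hG : IsGalois Γ p) (heqv : Eqv Γ p v)
    (hAd : AdRank) (F : Lf m p v γ b₀ r N β x₀) {C₁ Q : ℝ} (hQ0 : 0 ≤ Q)
    (hQ1 : Q < 1)
    (hout : ∀ (j : ℕ) (a : Fin (R + 1)), ∃ (K : KA n (MZ p v)) (L : KL p v h (j + 1) K)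
      (s : K.Fm R), OutAt m p v h ρ γ b₀ r F.pos N β (j + 1) a (C₁ * Q ^ (j + 1)) K L s) :
    ∃ k, 1 ≤ k ∧ ∃ s : Fin (R + 1) → X → Chart n X → (Fin R → Cm n) → ℂ,
      (∀ a, LSec p R m k v (s a)) ∧
      ∃ x ∈ GoodX p R m v, ∃ (e : Chart n X) (ξ : Fin R → Cm n), At e x ∧ s 0 x e ξ ≠ 0 ∧
        LinearIndependent ℂ fun a : Fin R =>
          fderiv ℂ (fun z => s a.succ (e.symm z) e ξ / s 0 (e.symm z) e ξ) (e x) := by
  set Q₁ : ℝ := (1 + Q) / 2 with hQ₁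
  have hQ₁0 : 0 < Q₁ := by rw [hQ₁]; linarith
  have hQ₁1 : Q₁ < 1 := by rw [hQ₁]; linarith
  have hQQ : Q < Q₁ := by rw [hQ₁]; linarith
  obtain ⟨e, ξ₀, δ, C, hn⟩ := exists_near hB hy F hQ₁1
  choose K L s o using hout
  have hgood : x₀ ∈ GoodX p R m v := F.good hy.form hy.cov.continuous hy.hm F.mem
  have hT : ThinC n (GoodX p R m v) := by
    obtain ⟨y, -, e', b, γ', hnf⟩ := hgood
    exact Vale.Agent.P284.H174.GD.goodX_thin hy.form hy.cov hy.surj (y₀ := y) ⟨e', b, γ', hnf⟩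
  have hsec : ∀ j a, LSec p R m (m * (j + 1) + 1) v ((L j a).tot (s j a)) := fun j a =>
    lsec hB hBV hy hK1 (hK3 _) (o j a).vol (L j a) hG heqv (Nat.succ_pos j) hAd hT
      (o j a).hess (o j a).form (o j a).smooth (o j a).hol ((o j a).fin hK1 (hK3 _)) (o j a).ker
  set f : ℕ → Fin (R + 1) → Cm n → ℂ := fun j a z =>
    (L j a).tot (s j a) (e.symm z) e ξ₀ / model m γ b₀ β e ξ₀ (j + 1) z with hf
  have hfd : ∀ j a, DifferentiableOn ℂ (f j a) (ball (e x₀) δ) := by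
    intro j a z hz
    have hat := hn.at_ hz
    have h0 : e (e.symm z) = z := e.right_inv (hn.tgt z hz)
    have hg : e.symm z ∈ GoodX p R m v := F.good hy.form hy.cov.continuous hy.hm (hn.mem z hz)
    have h1 := an_of_nf hat ((hsec j a).nf _ hg e hat) ξ₀
    rw [h0] at h1
    exact ((h1.fun_div (hn.model_an F (j + 1) hz)
      (hn.model_ne hQ₁0 (j + 1) hz)).differentiableAt).differentiableWithinAt
  have hbd : DifferentiableOn ℂ (fun z => β (e.symm z)) (ball (e x₀) δ) := by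
    intro z hz
    have hat := hn.at_ hz
    have h0 : e (e.symm z) = z := e.right_inv (hn.tgt z hz)
    have h1 := F.an _ (hn.mem z hz) e hat
    rw [h0] at h1
    exact h1.differentiableAt.differentiableWithinAt
  have hlim : ∀ a, Tendsto (fun j => ∫⁻ z in ball (e x₀) δ,
      ‖f j a z - (Fin.cons 1 (β (e.symm z)) : Fin (R + 1) → ℂ) a‖ₑ ^ 2) atTop (𝓝 0) := by
    intro a
    have h1 : Tendsto (fun j : ℕ => ENNReal.ofReal (4 * C * C₁ * (Q₁⁻¹ * Q) ^ (j + 1))) atTop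
        (𝓝 0) := by
      have h2 : Q₁⁻¹ * Q < 1 := by rwa [inv_mul_lt_one₀ hQ₁0]
      have h3 : Tendsto (fun j : ℕ => 4 * C * C₁ * (Q₁⁻¹ * Q) ^ (j + 1)) atTop (𝓝 0) := by
        have h4 := ((tendsto_pow_atTop_nhds_zero_of_lt_one (by positivity) h2).comp
          (tendsto_add_atTop_nat 1)).const_mul (4 * C * C₁)
        rw [mul_zero] at h4
        exact h4
      have h5 := ENNReal.tendsto_ofReal h3
      rwa [ENNReal.ofReal_zero] at h5
    refine tendsto_of_tendsto_of_tendsto_of_le_of_le tendsto_const_nhds h1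
      (fun _ => zero_le) fun j => ?_
    have h2 := hn.int_est hBV hQ₁0 hy hK1 F (hK3 _) (o j a).vol (L j a) (o j a).form
      (o j a).smooth a (o j a).form₀ (o j a).smooth₀ (o j a).est
    refine h2.trans (le_of_eq ?_)
    congr 1
    rw [mul_pow]
    ring
  have hJ := jets hn.pos hbd (F.surj hy.form hy.hm F.mem hn.at₀) f hfd hlim
  obtain ⟨j, hj0, hjl⟩ := hJ.exists
  have hx0 : e.symm (e x₀) = x₀ := hn.at₀.left_inv
  refine ⟨m * (j + 1) + 1, Nat.succ_pos _, fun a => (L j a).tot (s j a), hsec j, x₀, hgood, e, ξ₀,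
    hn.at₀, ?_, ?_⟩
  · intro h0
    beta_reduce at h0
    apply hj0
    show (L j 0).tot (s j 0) (e.symm (e x₀)) e ξ₀ / model m γ b₀ β e ξ₀ (j + 1) (e x₀) = 0
    rw [hx0, h0, zero_div]
  · have h3 : ∀ a : Fin R, fderiv ℂ (fun z => f j a.succ z / f j 0 z) (e x₀) =
        fderiv ℂ (fun z => (L j a.succ).tot (s j a.succ) (e.symm z) e ξ₀ /
          (L j 0).tot (s j 0) (e.symm z) e ξ₀) (e x₀) := by
      intro a
      refine Filter.EventuallyEq.fderiv_eq ?_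
      filter_upwards [ball_mem_nhds (e x₀) hn.pos] with z hz
      rw [hf]
      exact div_div_div_cancel_right₀ (hn.model_ne hQ₁0 (j + 1) hz) _ _
    simp only [h3] at hjl
    exact hjl

end

end Vale.Agent.P284.H553.K8
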