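import Vale.Agent.P284.H553.K8.S
import Vale.Agent.P284.H730.S5G4
import Vale.Agent.P272.K.EST.Local

/-!
# P284 (helper553), K8: positivity of `i∂∂̄ log ‖γ‖²`
-/

open scoped Manifold ContDiff Topology ComplexConjugate ComplexOrder ENNReal InnerProductSpace
open Filter Set Metric MeasureTheory

noncomputable section

namespace Vale.Agent.P284.H553.K8

open Vale.Agent.P272.K Vale.Agent.P284.H573 Vale.Agent.P284.H395 Vale.Agent.P284.H998
  Vale.Agent.P284.H998.U Vale.Agent.P284.H553.LB Vale.Agent.P284.H608.K Vale.Agent.P284.H213.KL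
  Vale.Agent.P284.H730.G Vale.Agent.P272.K.QN

variable {n R m : ℕ} {H : Type} [NormedAddCommGroup H] [InnerProductSpace ℂ H] [CompleteSpace H]

/-- `Σ_i ∂β_i ⊗ conj ∂β_i` -/
def BB (b : Cm n → Cm R) (z : Cm n) : Matrix (Fin n) (Fin n) ℂ :=
  Matrix.of fun j k => ∑ i, fderiv ℂ b z (Pi.single j 1) i * conj (fderiv ℂ b z (Pi.single k 1) i)

theorem BB_eq {b : Cm n → Cm R} {z : Cm n} (h : DifferentiableAt ℂ b z) :
    BB b z = (jm b z).transpose * (jm b z).map (starRingEnd ℂ) := by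
  ext j k
  simp only [BB, Matrix.of_apply, Matrix.mul_apply, Matrix.transpose_apply, Matrix.map_apply,
    jm_apply h]

/-- the Fubini-Study form of a projective immersion is positive definite -/
theorem fs_posDef {γ : Cm R → H} {b : Cm R} (hγ : AnalyticAt ℂ γ b) (hi : ImmAt γ b) :
    (cHess (fun y => Real.log (‖γ y‖ ^ 2)) b).PosDef := by
  refine posDef_of_quad (cHess_isHermitian ((logg_smooth hγ hi.1).of_le (by norm_cast)))
    fun ζ hζ => ?_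
  have hp := norm_pos_iff.2 hi.1
  rw [quad_lev, lev_log ((contDiffAt_normSq hγ).of_le (by norm_cast)) (by positivity),
    lev_normSq hγ, dd_normSq hγ]
  have hne : ¬ ∃ r : ℂ, fderiv ℂ γ b ζ = r • γ b := by
    rintro ⟨r, hr⟩
    exact hζ (hi.2 ζ r hr)
  have h0 : fderiv ℂ γ b ζ ≠ 0 := fun h => hne ⟨0, by rw [h, zero_smul]⟩
  have h1 : ‖⟪γ b, fderiv ℂ γ b ζ⟫_ℂ‖ < ‖γ b‖ * ‖fderiv ℂ γ b ζ‖ := by
    refine lt_of_le_of_ne (norm_inner_le_norm _ _) fun h => ?_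
    have h2 := (norm_inner_eq_norm_iff hi.1 h0).1 h
    obtain ⟨r, -, hr⟩ := h2
    exact hne ⟨r, hr⟩
  have h2 : ‖⟪γ b, fderiv ℂ γ b ζ⟫_ℂ‖ ^ 2 < ‖γ b‖ ^ 2 * ‖fderiv ℂ γ b ζ‖ ^ 2 := by
    rw [← mul_pow]
    exact pow_lt_pow_left₀ h1 (norm_nonneg _) (by norm_num)
  have h3 : ((‖γ b‖ ^ 2) ^ 2)⁻¹ * ‖⟪γ b, fderiv ℂ γ b ζ⟫_ℂ‖ ^ 2 <
      ((‖γ b‖ ^ 2) ^ 2)⁻¹ * (‖γ b‖ ^ 2 * ‖fderiv ℂ γ b ζ‖ ^ 2) :=
    mul_lt_mul_of_pos_left h2 (by positivity)
  have h4 : ((‖γ b‖ ^ 2) ^ 2)⁻¹ * (‖γ b‖ ^ 2 * ‖fderiv ℂ γ b ζ‖ ^ 2) =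
      (‖γ b‖ ^ 2)⁻¹ * ‖fderiv ℂ γ b ζ‖ ^ 2 := by
    field_simp
  linarith

/-- uniform lower bound on compact sets -/
theorem fs_lower {γ : Cm R → H} {K : Set (Cm R)} (hK : IsCompact K)
    (hγ : ∀ b ∈ K, AnalyticAt ℂ γ b) (hi : ∀ b ∈ K, ImmAt γ b) :
    ∃ c : ℝ, 0 < c ∧ ∀ b ∈ K,
      (cHess (fun y => Real.log (‖γ y‖ ^ 2)) b - (c : ℂ) • (1 : Matrix (Fin R) (Fin R) ℂ)).PosSemidef := by
  obtain ⟨C, hC, h⟩ := exists_quad_lower hK (fun b => cHess (fun y => Real.log (‖γ y‖ ^ 2)) b)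
    (fun _ => 1) (fun i j => fun b hb =>
      ((C2.contDiffAt_cHess (m := 0) (logg_smooth (hγ b hb) (hi b hb).1) (by norm_cast)
        i j).continuousAt).continuousWithinAt) (fun i j => continuousOn_const)
    fun b hb => fs_posDef (hγ b hb) (hi b hb)
  refine ⟨C⁻¹, by positivity, fun b hb => ?_⟩
  have h1 : (cHess (fun y => Real.log (‖γ y‖ ^ 2)) b).IsHermitian :=
    (fs_posDef (hγ b hb) (hi b hb)).isHermitian
  have h2 := (EST.posSemidef_smul_sub_iff (a := 1) (b := C⁻¹) h1 Matrix.isHermitian_one).2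
    fun ξ => by
      have h3 := h b hb ξ
      rw [one_mul, inv_mul_le_iff₀ hC]
      exact h3
  simpa using h2

/-- the pull-back by a holomorphic map -/
theorem fs_comp {γ : Cm R → H} {b : Cm n → Cm R} {z : Cm n} (hb : AnalyticAt ℂ b z)
    (hγ : AnalyticAt ℂ γ (b z)) (h0 : γ (b z) ≠ 0) {c : ℝ}
    (hc : (cHess (fun y => Real.log (‖γ y‖ ^ 2)) (b z) -
      (c : ℂ) • (1 : Matrix (Fin R) (Fin R) ℂ)).PosSemidef) :
    (cHess (fun z => Real.log (‖γ (b z)‖ ^ 2)) z - (c : ℂ) • BB b z).PosSemidef := by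
  have h1 := cHess_comp_R (g := fun y => Real.log (‖γ y‖ ^ 2)) (Φ := b) (z := z)
    ((logg_smooth hγ h0).of_le (by norm_cast)) hb.contDiffAt
  rw [h1, BB_eq hb.differentiableAt]
  have h2 := hc.mul_mul_conjTranspose_same (jm b z).transpose
  have h3 : (jm b z).transpose.conjTranspose = (jm b z).map (starRingEnd ℂ) := by
    ext i j
    rfl
  rw [h3] at h2
  convert h2 using 1
  rw [Matrix.mul_sub, Matrix.sub_mul]
  congr 1
  rw [Matrix.mul_smul, Matrix.smul_mul, Matrix.mul_one]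

end Vale.Agent.P284.H553.K8
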