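import Vale.Agent.P284.H553.K8.Geo

/-!
# P284 (helper553), K8: the form `ρ` on the leaf charts
-/

open scoped Manifold ContDiff Topology ComplexConjugate ComplexOrder ENNReal InnerProductSpace
open Filter Set Metric MeasureTheory

noncomputable section

namespace Vale.Agent.P284.H553.K8

open Vale.Agent.P272.K Vale.Agent.P284.H573 Vale.Agent.P284.H395 Vale.Agent.P284.H998
  Vale.Agent.P284.H998.U Vale.Agent.P284.H553.LB Vale.Agent.P284.H608.K Vale.Agent.P284.H213.KL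

/-- the matrix `DM` is analytic -/
theorem DM_an {n R : ℕ} {b : Cm n → Cm R} {z : Cm n} (hb : AnalyticAt ℂ b z)
    (ξ : Fin R → Cm n) (i j : Fin R) :
    AnalyticAt ℂ (fun q : Cm n × (Fin R → Cm n) => DM b q.1 q.2 i j) (z, ξ) := by
  have h1 : AnalyticAt ℂ (fun q : Cm n × (Fin R → Cm n) => fderiv ℂ b q.1) (z, ξ) :=
    AnalyticAt.fun_comp (g := fderiv ℂ b) (f := fun q : Cm n × (Fin R → Cm n) => q.1)
      hb.fderiv analyticAt_fst
  have h2 : AnalyticAt ℂ (fun q : Cm n × (Fin R → Cm n) => q.2 j) (z, ξ) :=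
    (ContinuousLinearMap.proj (R := ℂ) (φ := fun _ : Fin R => Cm n) j).analyticAt _ |>.fun_comp
      analyticAt_snd
  have h3 : AnalyticAt ℂ (fun q : Cm n × (Fin R → Cm n) => fderiv ℂ b q.1 (q.2 j)) (z, ξ) := by
    exact AnalyticAt.comp₂ (h := fun q : (Cm n →L[ℂ] Cm R) × Cm n => q.1 q.2)
      ((ContinuousLinearMap.id ℂ (Cm n →L[ℂ] Cm R)).analyticAt_bilinear (fderiv ℂ b z, ξ j)) h1 h2
  exact analyticAt_pi_iff.1 h3 i

theorem detDM_an {n R : ℕ} {b : Cm n → Cm R} {z : Cm n} (hb : AnalyticAt ℂ b z)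
    (ξ : Fin R → Cm n) :
    AnalyticAt ℂ (fun q : Cm n × (Fin R → Cm n) => (DM b q.1 q.2).det) (z, ξ) := by
  simp only [Matrix.det_apply]
  refine Finset.analyticAt_fun_sum _ fun σ _ => AnalyticAt.const_smul ?_
  exact Finset.analyticAt_fun_prod _ fun i _ => DM_an hb ξ _ _

theorem detDM_an' {n R : ℕ} {b : Cm n → Cm R} {z : Cm n} (hb : AnalyticAt ℂ b z)
    (ξ : Fin R → Cm n) : AnalyticAt ℂ (fun z => (DM b z ξ).det) z :=
  AnalyticAt.fun_comp (g := fun q : Cm n × (Fin R → Cm n) => (DM b q.1 q.2).det)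
    (f := fun z => (z, ξ)) (detDM_an hb ξ) (analyticAt_id.prod analyticAt_const)

theorem V_an {n R : ℕ} {H : Type} [NormedAddCommGroup H] [InnerProductSpace ℂ H] (m : ℕ)
    {b : Cm n → Cm R} {γ : Cm R → H} {z : Cm n} (hb : AnalyticAt ℂ b z)
    (hγ : AnalyticAt ℂ γ (b z)) (ξ : Fin R → Cm n) :
    AnalyticAt ℂ (fun q : Cm n × (Fin R → Cm n) => (DM b q.1 q.2).det ^ m • γ (b q.1)) (z, ξ) := by
  refine ((detDM_an hb ξ).fun_pow m).fun_smul ?_
  exact AnalyticAt.fun_comp (g := γ) (f := fun q : Cm n × (Fin R → Cm n) => b q.1) hγ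
    (AnalyticAt.fun_comp (g := b) (f := fun q : Cm n × (Fin R → Cm n) => q.1) hb analyticAt_fst)

variable {n R m : ℕ} {X E : Type} [TopologicalSpace X] [ChartedSpace (Cm n) X] [TopologicalSpace E]
  {H : Type} [NormedAddCommGroup H] [InnerProductSpace ℂ H] [CompleteSpace H]
  {p : E → X} {v : E → Chart n X → (Fin R → Cm n) → H}
  {γ : Cm R → H} {b₀ : Cm R} {r : ℝ} {N : Set X} {β : X → Cm R} {x₀ : X}

/-- `ρ` on the leaf chart -/
theorem Lf.rho [IsManifold 𝓘(ℂ, Cm n) ω X] (hv : HForm n R m p H v) (hl : IsLocalHomeomorph p)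
    (hm : 1 ≤ m) {ρ : Chart n X → Cm n → Matrix (Fin n) (Fin n) ℂ}
    (hρ : ∀ (y : E) (e : Chart n X), At e (p y) → ∀ V : Cm n × (Fin R → Cm n) → H,
      (∀ ξ, AnalyticAt ℂ V (e (p y), ξ)) → (∀ᶠ y' in 𝓝 y, ∀ ξ, v y' e ξ = V (e (p y'), ξ)) →
      ∀ ξ, v y e ξ ≠ 0 →
        ρ e (e (p y)) = cHess (fun z => Real.log (‖V (z, ξ)‖ ^ 2)) (e (p y)))
    (L : Lf m p v γ b₀ r N β x₀) {x : X} (hx : x ∈ N) {e : Chart n X} (he : At e x) :
    ρ e (e x) = cHess (fun z => Real.log (‖γ (β (e.symm z))‖ ^ 2)) (e x) := by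
  obtain ⟨y, hy, hnf⟩ := L.nf x hx
  subst hy
  have hb : AnalyticAt ℂ (fun z => β (e.symm z)) (e (p y)) := L.an _ hx e he
  have hβx : β (e.symm (e (p y))) = β (p y) := by rw [he.left_inv]
  have hγ : AnalyticAt ℂ γ (β (e.symm (e (p y)))) := by
    rw [hβx]; exact L.γan _ (L.maps _ hx)
  have hnz : NZ p v y := nz_of_notMem (L.off _ hx) rfl
  obtain ⟨ξ, hξ⟩ := NZ.chart hv hnz he
  have h1 := hnf e he
  have h2 : ∀ᶠ y' in 𝓝 y, ∀ ξ : Fin R → Cm n, v y' e ξ =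
      (fun q : Cm n × (Fin R → Cm n) => (DM (fun z => β (e.symm z)) q.1 q.2).det ^ m •
        γ (β (e.symm q.1))) (e (p y'), ξ) := by
    filter_upwards [h1, hl.continuous.continuousAt.eventually (at_ev he)] with y' h3 h4 ξ
    simp only [h3 ξ, h4.left_inv]
  have h3 := hρ y e he _ (fun ξ => V_an m hb hγ ξ) h2 ξ hξ
  rw [h3]
  have h4 : (fun z => Real.log (‖(DM (fun z => β (e.symm z)) z ξ).det ^ m •
      γ (β (e.symm z))‖ ^ 2)) = fun z => Real.log ((‖(DM (fun z => β (e.symm z)) z ξ).det‖ ^ m *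
        ‖γ (β (e.symm z))‖) ^ 2) := by
    funext z
    rw [norm_smul, norm_pow]
  rw [h4]
  have h5 := h1.self_of_nhds ξ
  rw [h5] at hξ
  have h6 : (DM (fun z => β (e.symm z)) (e (p y)) ξ).det ≠ 0 := by
    intro h
    rw [h, zero_pow (by omega), zero_smul] at hξ
    exact hξ rfl
  have h7 : γ (β (e.symm (e (p y)))) ≠ 0 := by
    rw [hβx]
    intro h
    rw [h, smul_zero] at hξ
    exact hξ rfl
  exact cHess_fac (g := fun z => γ (β (e.symm z))) (detDM_an' hb ξ) h6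
    (AnalyticAt.fun_comp (g := γ) (f := fun z => β (e.symm z)) hγ hb) h7

/-- lower bound of `ρ` on the leaf chart -/
theorem Lf.rho_ge [IsManifold 𝓘(ℂ, Cm n) ω X] (hv : HForm n R m p H v)
    (hl : IsLocalHomeomorph p) (hm : 1 ≤ m) {ρ : Chart n X → Cm n → Matrix (Fin n) (Fin n) ℂ}
    (hρ : ∀ (y : E) (e : Chart n X), At e (p y) → ∀ V : Cm n × (Fin R → Cm n) → H,
      (∀ ξ, AnalyticAt ℂ V (e (p y), ξ)) → (∀ᶠ y' in 𝓝 y, ∀ ξ, v y' e ξ = V (e (p y'), ξ)) →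
      ∀ ξ, v y e ξ ≠ 0 →
        ρ e (e (p y)) = cHess (fun z => Real.log (‖V (z, ξ)‖ ^ 2)) (e (p y)))
    (L : Lf m p v γ b₀ r N β x₀) {K : Set (Cm R)} (hK : IsCompact K) (hKb : K ⊆ ball b₀ r) :
    ∃ c : ℝ, 0 < c ∧ ∀ x ∈ N, β x ∈ K → ∀ e : Chart n X, At e x →
      (ρ e (e x) - (c : ℂ) • BB (fun z => β (e.symm z)) (e x)).PosSemidef := by
  obtain ⟨c, hc, h⟩ := fs_lower hK (fun b hb => L.γan b (hKb hb)) fun b hb => L.imm b (hKb hb)
  refine ⟨c, hc, fun x hx hxK e he => ?_⟩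
  rw [L.rho hv hl hm hρ hx he]
  have h1 : β (e.symm (e x)) = β x := by rw [he.left_inv]
  refine fs_comp (γ := γ) (b := fun z => β (e.symm z)) (z := e x) (L.an x hx e he) ?_ ?_ ?_
  · simp only [h1]; exact L.γan _ (hKb hxK)
  · simp only [h1]; exact (L.imm _ (hKb hxK)).1
  · simp only [h1]; exact h _ hxK

end Vale.Agent.P284.H553.K8
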