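import Vale.Agent.P284.H553.K8.LS
import Vale.Agent.P284.H553.K8.Loc2
import Vale.Agent.P284.H553.K8.D

/-!
# P284 (helper553), K8: the sections near the centre of the leaf chart
-/

open scoped Manifold ContDiff Topology ComplexConjugate ComplexOrder ENNReal InnerProductSpace
open Filter Set Metric MeasureTheory

noncomputable section

namespace Vale.Agent.P284.H553.K8

open Vale.Agent.P272.K Vale.Agent.P284.H573 Vale.Agent.P284.H395 Vale.Agent.P284.H998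
  Vale.Agent.P284.H998.U Vale.Agent.P284.H553.LB Vale.Agent.P284.H608.K Vale.Agent.P284.H837
  Vale.Agent.P284.H894 Vale.Agent.P284.H894.G Vale.Agent.P284.H47.K Vale.Agent.P284.H213.KL
  Vale.Agent.P284.H286.K

section
variable {n R m : ℕ} {X E : Type} [TopologicalSpace X] [T2Space X] [CompactSpace X]
  [ChartedSpace (Cm n) X] [TopologicalSpace E]
  {H : Type} [NormedAddCommGroup H] [InnerProductSpace ℂ H] [CompleteSpace H]
  {p : E → X} {v : E → Chart n X → (Fin R → Cm n) → H} [IsManifold 𝓘(ℂ, Cm n) ω X]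
  [MeasurableSpace X] [BorelSpace X]
  {w h ρ : Chart n X → Cm n → Matrix (Fin n) (Fin n) ℂ}
  {γ : Cm R → H} {b₀ : Cm R} {r : ℝ} {N : Set X} {β : X → Cm R} {x₀ : X}

/-- the model of the sections near the centre -/
def model (m : ℕ) (γ : Cm R → H) (b₀ : Cm R) (β : X → Cm R) (e : Chart n X) (ξ₀ : Fin R → Cm n)
    (j : ℕ) (z : Cm n) : ℂ :=
  l0 γ b₀ (γ (β (e.symm z))) ^ j * (DM (fun z => β (e.symm z)) z ξ₀).det ^ (m * j + 1)

/-- the ball about the centre, and the constants -/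
structure Near (n R m : ℕ) {X E : Type} [TopologicalSpace X] [ChartedSpace (Cm n) X]
    [TopologicalSpace E] [MeasurableSpace X] {H : Type} [NormedAddCommGroup H]
    [InnerProductSpace ℂ H] (p : E → X) (v : E → Chart n X → (Fin R → Cm n) → H)
    (h : Chart n X → Cm n → Matrix (Fin n) (Fin n) ℂ) (γ : Cm R → H) (b₀ : Cm R) (r : ℝ)
    (N : Set X) (β : X → Cm R) (x₀ : X) (Q₁ : ℝ) (e : Chart n X) (ξ₀ : Fin R → Cm n) (δ C : ℝ) :
    Prop where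
  at₀ : At e x₀
  frame : ∀ k, fderiv ℂ (fun z => β (e.symm z)) (e x₀) (ξ₀ k) = Pi.single k 1
  pos : 0 < δ
  C0 : 0 ≤ C
  tgt : ∀ z ∈ ball (e x₀) δ, z ∈ e.target
  mem : ∀ z ∈ ball (e x₀) δ, e.symm z ∈ N
  bet : ∀ z ∈ ball (e x₀) δ, β (e.symm z) ∈ ball b₀ (r / 3)
  detge : ∀ z ∈ ball (e x₀) δ, 1 / 2 ≤ ‖(DM (fun z => β (e.symm z)) z ξ₀).det‖
  ratge : ∀ z ∈ ball (e x₀) δ, Q₁ ≤ rat γ (l0 γ b₀) (β (e.symm z))
  totle : ∀ z ∈ ball (e x₀) δ, ∀ (j : ℕ) (K : KA n (MZ p v)) (L : KL p v h j K)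
      (s : K.Fm R), K.IsForm s → ∀ hx : e.symm z ∉ Zs p v, ∀ y, p y = e.symm z →
      ‖L.tot s (e.symm z) e ξ₀‖ ^ 2 ≤
        C * ((K.dn s s ⟨e.symm z, hx⟩).re * (h e z).det.re) * ‖v y e ξ₀‖ ^ (2 * j)

theorem exists_near (hB : BStmt) (hy : Hyp n R m X w h ρ E p H v) (F : Lf m p v γ b₀ r N β x₀)
    {Q₁ : ℝ} (hQ : Q₁ < 1) :
    ∃ e ξ₀ δ C, Near n R m p v h γ b₀ r N β x₀ Q₁ e ξ₀ δ C := by
  set e := chartAt (Cm n) x₀ with he'
  have he : At e x₀ := at_chart x₀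
  have hsym : e.symm (e x₀) = x₀ := he.left_inv
  obtain ⟨ξ₀, hξ₀⟩ := exists_rinv (F.surj hy.form hy.hm F.mem he)
  obtain ⟨C, hC, hev⟩ := tot_le hB hy he ξ₀
  have hb := F.an x₀ F.mem e he
  have hd1 : (DM (fun z => β (e.symm z)) (e x₀) ξ₀).det = 1 := by
    rw [DM_eq, LM_rinv hξ₀, Matrix.det_one]
  have hbr : b₀ ∈ ball b₀ r := mem_ball_self F.pos
  have hβ0 : β (e.symm (e x₀)) = b₀ := by rw [hsym]; exact F.eq
  have hγ0 : γ b₀ ≠ 0 := (F.imm b₀ hbr).1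
  have h1 : ∀ᶠ z in 𝓝 (e x₀), e.symm z ∈ N := ev_chart he (F.isOpen.mem_nhds F.mem)
  have h2 : ∀ᶠ z in 𝓝 (e x₀), β (e.symm z) ∈ ball b₀ (r / 3) := by
    refine hb.continuousAt.eventually (isOpen_ball.mem_nhds ?_)
    beta_reduce
    rw [hβ0]
    exact mem_ball_self (by have := F.pos; positivity)
  have h3 : ∀ᶠ z in 𝓝 (e x₀), 1 / 2 < ‖(DM (fun z => β (e.symm z)) z ξ₀).det‖ := by
    refine (detDM_an' hb ξ₀).continuousAt.norm.eventually_const_lt ?_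
    beta_reduce
    rw [hd1, norm_one]; norm_num
  have h4 : ∀ᶠ z in 𝓝 (e x₀), Q₁ < rat γ (l0 γ b₀) (β (e.symm z)) := by
    have h5 : ContinuousAt (fun z => rat γ (l0 γ b₀) (β (e.symm z))) (e x₀) := by
      refine ContinuousAt.comp (g := rat γ (l0 γ b₀)) (f := fun z => β (e.symm z)) ?_
        hb.continuousAt
      rw [hβ0]
      exact rat_cont _ (F.γan b₀ hbr).continuousAt hγ0
    refine h5.eventually_const_lt ?_
    beta_reduce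
    rw [hβ0, rat_self hγ0]
    exact hQ
  have h0 : ∀ᶠ z in 𝓝 (e x₀), z ∈ e.target ∧ e.symm z ∈ N ∧ β (e.symm z) ∈ ball b₀ (r / 3) ∧
      1 / 2 < ‖(DM (fun z => β (e.symm z)) z ξ₀).det‖ ∧ Q₁ < rat γ (l0 γ b₀) (β (e.symm z)) ∧
      ∀ (j : ℕ) (K : KA n (MZ p v)) (L : KL p v h j K)
      (s : K.Fm R), K.IsForm s → ∀ hx : e.symm z ∉ Zs p v, ∀ y, p y = e.symm z →
      ‖L.tot s (e.symm z) e ξ₀‖ ^ 2 ≤
        C * ((K.dn s s ⟨e.symm z, hx⟩).re * (h e z).det.re) * ‖v y e ξ₀‖ ^ (2 * j) := by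
    filter_upwards [he.nhds_target, h1, h2, h3, h4, ev_chart he hev] with z a1 a2 a3 a4 a5 a6
    refine ⟨a1, a2, a3, a4, a5, fun j K L s hs hx y hyx => ?_⟩
    have := a6.2 j K L s hs hx y hyx
    rwa [e.right_inv a1] at this
  obtain ⟨δ, hδ, hball⟩ := Metric.eventually_nhds_iff_ball.1 h0
  exact ⟨e, ξ₀, δ, C, ⟨he, hξ₀, hδ, hC, fun z hz => (hball z hz).1, fun z hz => (hball z hz).2.1,
    fun z hz => (hball z hz).2.2.1, fun z hz => (hball z hz).2.2.2.1.le,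
    fun z hz => (hball z hz).2.2.2.2.1.le, fun z hz => (hball z hz).2.2.2.2.2⟩⟩

omit [T2Space X] [CompactSpace X] [CompleteSpace H] [BorelSpace X] in
theorem KL.tot_sub {j : ℕ} {K : KA n (MZ p v)} (L : KL p v h j K) (hL : Line n p v (Zs p v))
    (hv : HForm n R m p H v) {s s' : K.Fm R} (hs : K.IsForm s) (hs' : K.IsForm s')
    {x : X} (hx : x ∉ Zs p v) {e : Chart n X} (he : At e x) (ξ : Fin R → Cm n) :
    L.tot (s - s') x e ξ = L.tot s x e ξ - L.tot s' x e ξ := by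
  obtain ⟨i, hi⟩ := L.exists_ix ⟨x, hx⟩
  have hi' : x ∈ L.U i := hi
  rw [L.tot_eq hL hv (form_sub hs hs') hi' he, L.tot_eq hL hv hs hi' he,
    L.tot_eq hL hv hs' hi' he, ← sub_mul]
  rfl

variable {Q₁ : ℝ} {e : Chart n X} {ξ₀ : Fin R → Cm n} {δ C : ℝ}

omit [T2Space X] [CompactSpace X] [CompleteSpace H] [BorelSpace X] [IsManifold 𝓘(ℂ, Cm n) ω X] in
theorem Near.at_ (hn : Near n R m p v h γ b₀ r N β x₀ Q₁ e ξ₀ δ C) {z : Cm n}
    (hz : z ∈ ball (e x₀) δ) : At e (e.symm z) := ⟨hn.at₀.1, e.map_target (hn.tgt z hz)⟩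

omit [T2Space X] [CompactSpace X] [CompleteSpace H] [BorelSpace X] [IsManifold 𝓘(ℂ, Cm n) ω X] in
theorem Near.l0_ne (hn : Near n R m p v h γ b₀ r N β x₀ Q₁ e ξ₀ δ C) (hQ0 : 0 < Q₁) {z : Cm n}
    (hz : z ∈ ball (e x₀) δ) : l0 γ b₀ (γ (β (e.symm z))) ≠ 0 := by
  intro h0
  have h1 := hn.ratge z hz
  rw [K8.rat, h0, norm_zero] at h1
  norm_num at h1
  linarith

omit [T2Space X] [CompactSpace X] [CompleteSpace H] [BorelSpace X] [IsManifold 𝓘(ℂ, Cm n) ω X] in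
theorem Near.det_ne (hn : Near n R m p v h γ b₀ r N β x₀ Q₁ e ξ₀ δ C) {z : Cm n}
    (hz : z ∈ ball (e x₀) δ) : (DM (fun z => β (e.symm z)) z ξ₀).det ≠ 0 := by
  intro h0
  have h1 := hn.detge z hz
  rw [h0, norm_zero] at h1
  norm_num at h1

omit [T2Space X] [CompactSpace X] [CompleteSpace H] [BorelSpace X] [IsManifold 𝓘(ℂ, Cm n) ω X] in
theorem Near.model_ne (hn : Near n R m p v h γ b₀ r N β x₀ Q₁ e ξ₀ δ C) (hQ0 : 0 < Q₁) (j : ℕ)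
    {z : Cm n} (hz : z ∈ ball (e x₀) δ) : model m γ b₀ β e ξ₀ j z ≠ 0 :=
  mul_ne_zero (pow_ne_zero _ (hn.l0_ne hQ0 hz)) (pow_ne_zero _ (hn.det_ne hz))

omit [T2Space X] [CompactSpace X] [BorelSpace X] [IsManifold 𝓘(ℂ, Cm n) ω X] in
theorem Near.model_an (hn : Near n R m p v h γ b₀ r N β x₀ Q₁ e ξ₀ δ C)
    (F : Lf m p v γ b₀ r N β x₀) (j : ℕ) {z : Cm n} (hz : z ∈ ball (e x₀) δ) :
    AnalyticAt ℂ (model m γ b₀ β e ξ₀ j) z := by
  have h0 : e (e.symm z) = z := e.right_inv (hn.tgt z hz)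
  have hb : AnalyticAt ℂ (fun z => β (e.symm z)) z := by
    have := F.an _ (hn.mem z hz) e (hn.at_ hz)
    rwa [h0] at this
  have hγ : AnalyticAt ℂ γ (β (e.symm z)) := F.γan _ (F.maps _ (hn.mem z hz))
  refine AnalyticAt.fun_mul (AnalyticAt.fun_pow ?_ j) ((detDM_an' hb ξ₀).fun_pow _)
  exact AnalyticAt.fun_comp (g := fun u => l0 γ b₀ u) (f := fun z => γ (β (e.symm z)))
    (ContinuousLinearMap.analyticAt _ _)
    (AnalyticAt.fun_comp (g := γ) (f := fun z => β (e.symm z)) hγ hb)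

/-- **the pointwise estimate** -/
theorem Near.est (hn : Near n R m p v h γ b₀ r N β x₀ Q₁ e ξ₀ δ C) (hQ0 : 0 < Q₁)
    (hy : Hyp n R m X w h ρ E p H v) (hK1 : K1Stmt) (F : Lf m p v γ b₀ r N β x₀)
    {j : ℕ} {K : KA n (MZ p v)} (L : KL p v h j K) {s : K.Fm R} (hs : K.IsForm s)
    (a : Fin (R + 1))
    (hs0 : K.IsForm (L.s0 m γ (l0 γ b₀) N β (ff b₀ r F.pos a))) {z : Cm n}
    (hz : z ∈ ball (e x₀) δ) :
    ‖L.tot s (e.symm z) e ξ₀ / model m γ b₀ β e ξ₀ j z - PP a (β (e.symm z))‖ₑ ^ 2 ≤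
      ENNReal.ofReal (4 * C * (Q₁⁻¹) ^ j) *
        DD h K (s - L.s0 m γ (l0 γ b₀) N β (ff b₀ r F.pos a)) e z := by
  set s₀ := L.s0 m γ (l0 γ b₀) N β (ff b₀ r F.pos a) with hs₀
  have hzN := hn.mem z hz
  have hxZ : e.symm z ∉ Zs p v := F.off _ hzN
  have hat := hn.at_ hz
  have h0 : e (e.symm z) = z := e.right_inv (hn.tgt z hz)
  have hm0 := hn.model_ne (m := m) hQ0 j hz
  obtain ⟨y, hyx⟩ := hy.surj (e.symm z)
  obtain ⟨G, hG1, -, hG2⟩ := F.vform hy.line hy.form hzN hyx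
  have hv1 : ‖v y e ξ₀‖ = ‖(DM (fun z => β (e.symm z)) z ξ₀).det‖ ^ m * ‖γ (β (e.symm z))‖ := by
    rw [hG2 e hat ξ₀, norm_smul, norm_pow, hG1, h0]
  have h1 : L.tot s₀ (e.symm z) e ξ₀ = PP a (β (e.symm z)) * model m γ b₀ β e ξ₀ j z := by
    rw [hs₀, L.tot_s0 hy.line hy.form F hs0 hzN hat ξ₀, h0, ff_eq b₀ r F.pos a (hn.bet z hz)]
    rfl
  have h2 : L.tot s (e.symm z) e ξ₀ / model m γ b₀ β e ξ₀ j z - PP a (β (e.symm z)) =
      L.tot (s - s₀) (e.symm z) e ξ₀ / model m γ b₀ β e ξ₀ j z := by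
    rw [L.tot_sub hy.line hy.form hs hs0 hxZ hat, h1]
    field_simp
  have h3 := hn.totle z hz j K L (s - s₀) (form_sub hs hs0) hxZ y hyx
  set D₁ := (K.dn (s - s₀) (s - s₀) ⟨e.symm z, hxZ⟩).re * (h e z).det.re with hD₁
  have hD0 : 0 ≤ D₁ := by
    refine mul_nonneg (dn_nonneg hK1 _ _) ?_
    have := (hy.koff.posDef e (e.symm z) hat hxZ).det_pos
    rw [h0] at this
    exact (Complex.pos_iff.1 this).1.le
  have hl : 0 < ‖l0 γ b₀ (γ (β (e.symm z)))‖ := norm_pos_iff.2 (hn.l0_ne hQ0 hz)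
  have hd : 0 < ‖(DM (fun z => β (e.symm z)) z ξ₀).det‖ := norm_pos_iff.2 (hn.det_ne hz)
  have hd2 := hn.detge z hz
  have hg : 0 < ‖γ (β (e.symm z))‖ := norm_pos_iff.2 (F.imm _ (F.maps _ hzN)).1
  have hr := hn.ratge z hz
  have h4 : ‖L.tot (s - s₀) (e.symm z) e ξ₀ / model m γ b₀ β e ξ₀ j z‖ ^ 2 ≤
      4 * C * (Q₁⁻¹) ^ j * D₁ := by
    have hmn : ‖model m γ b₀ β e ξ₀ j z‖ ^ 2 = ‖l0 γ b₀ (γ (β (e.symm z)))‖ ^ (2 * j) *
        (‖(DM (fun z => β (e.symm z)) z ξ₀).det‖ ^ (2 * (m * j)) *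
          ‖(DM (fun z => β (e.symm z)) z ξ₀).det‖ ^ 2) := by
      rw [model, norm_mul, norm_pow, norm_pow]
      ring
    have hmpos : 0 < ‖model m γ b₀ β e ξ₀ j z‖ ^ 2 := by
      have := norm_pos_iff.2 hm0
      positivity
    rw [norm_div, div_pow, div_le_iff₀ hmpos]
    refine h3.trans ?_
    rw [hv1, hmn]
    have h5 : ‖γ (β (e.symm z))‖ ^ (2 * j) ≤
        (Q₁⁻¹) ^ j * ‖l0 γ b₀ (γ (β (e.symm z)))‖ ^ (2 * j) := by
      rw [pow_mul, pow_mul, ← mul_pow]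
      refine pow_le_pow_left₀ (by positivity) ?_ j
      rw [K8.rat, le_div_iff₀ (by positivity)] at hr
      rw [inv_mul_eq_div, le_div_iff₀ hQ0, mul_comm]
      exact hr
    have h6 : (1 : ℝ) ≤ 4 * ‖(DM (fun z => β (e.symm z)) z ξ₀).det‖ ^ 2 := by nlinarith
    calc C * D₁ * (‖(DM (fun z => β (e.symm z)) z ξ₀).det‖ ^ m * ‖γ (β (e.symm z))‖) ^ (2 * j)
        = (C * D₁ * ‖(DM (fun z => β (e.symm z)) z ξ₀).det‖ ^ (2 * (m * j))) *
            ‖γ (β (e.symm z))‖ ^ (2 * j) := by ring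
      _ ≤ (C * D₁ * ‖(DM (fun z => β (e.symm z)) z ξ₀).det‖ ^ (2 * (m * j))) *
            ((Q₁⁻¹) ^ j * ‖l0 γ b₀ (γ (β (e.symm z)))‖ ^ (2 * j)) :=
          mul_le_mul_of_nonneg_left h5 (by have := hn.C0; positivity)
      _ = (C * D₁ * ‖(DM (fun z => β (e.symm z)) z ξ₀).det‖ ^ (2 * (m * j)) *
            ((Q₁⁻¹) ^ j * ‖l0 γ b₀ (γ (β (e.symm z)))‖ ^ (2 * j))) * 1 := by ring
      _ ≤ (C * D₁ * ‖(DM (fun z => β (e.symm z)) z ξ₀).det‖ ^ (2 * (m * j)) *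
            ((Q₁⁻¹) ^ j * ‖l0 γ b₀ (γ (β (e.symm z)))‖ ^ (2 * j))) *
              (4 * ‖(DM (fun z => β (e.symm z)) z ξ₀).det‖ ^ 2) :=
          mul_le_mul_of_nonneg_left h6 (by have := hn.C0; positivity)
      _ = _ := by ring
  rw [h2, DD, dif_neg hxZ, ← ENNReal.ofReal_mul (by have := hn.C0; positivity), ← ofReal_norm,
    ← ENNReal.ofReal_pow (norm_nonneg _)]
  exact ENNReal.ofReal_le_ofReal h4

/-- **the integral estimate** -/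
theorem Near.int_est (hBV : BVolStmt) (hn : Near n R m p v h γ b₀ r N β x₀ Q₁ e ξ₀ δ C)
    (hQ0 : 0 < Q₁)
    (hy : Hyp n R m X w h ρ E p H v) [Nonempty (MZ p v)] (hK1 : K1Stmt)
    (F : Lf m p v γ b₀ r N β x₀)
    {j : ℕ} {K : KA n (MZ p v)} (hK3 : K3Stmt n (MZ p v) K)
    (hvol : VolV p v (Zs p v) h K.μ) (L : KL p v h j K) {s : K.Fm R} (hs : K.IsForm s)
    (hsm : K.Smooth s) (a : Fin (R + 1))
    (hs0 : K.IsForm (L.s0 m γ (l0 γ b₀) N β (ff b₀ r F.pos a)))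
    (hsm0 : K.Smooth (L.s0 m γ (l0 γ b₀) N β (ff b₀ r F.pos a))) {C₀ : ℝ}
    (hC₀ : K.nl (s - L.s0 m γ (l0 γ b₀) N β (ff b₀ r F.pos a)) ≤ ENNReal.ofReal C₀) :
    ∫⁻ z in ball (e x₀) δ,
      ‖L.tot s (e.symm z) e ξ₀ / model m γ b₀ β e ξ₀ j z - PP a (β (e.symm z))‖ₑ ^ 2 ≤
      ENNReal.ofReal (4 * C * (Q₁⁻¹) ^ j * C₀) := by
  set s₀ := L.s0 m γ (l0 γ b₀) N β (ff b₀ r F.pos a) with hs₀
  set U : Set X := e.source ∩ e ⁻¹' ball (e x₀) δ with hUdef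
  have hU : IsOpen U := e.isOpen_inter_preimage isOpen_ball
  have hUe : U ⊆ e.source := fun x hx => hx.1
  have hUball : ∀ x ∈ U, x ∈ N := by
    intro x hx
    have := hn.mem (e x) hx.2
    rwa [e.left_inv hx.1] at this
  have hUZ : ∀ x ∈ U, x ∉ Zs p v := fun x hx => F.off _ (hUball x hx)
  have h1 := int_DD (s := s - s₀) hBV hy hK1 hK3 hvol (form_sub hs hs0)
    (fun i z hz => (hsm i z hz).sub (hsm0 i z hz)) hn.at₀.1 hU hUe hUZ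
  have h2 : ball (e x₀) δ ⊆ e.target ∩ e.symm ⁻¹' U := by
    intro z hz
    have ht := hn.tgt z hz
    refine ⟨ht, e.map_target ht, ?_⟩
    show e (e.symm z) ∈ ball (e x₀) δ
    rw [e.right_inv ht]; exact hz
  have hc : 0 ≤ 4 * C * (Q₁⁻¹) ^ j := by have := hn.C0; positivity
  calc ∫⁻ z in ball (e x₀) δ,
      ‖L.tot s (e.symm z) e ξ₀ / model m γ b₀ β e ξ₀ j z - PP a (β (e.symm z))‖ₑ ^ 2
      ≤ ∫⁻ z in ball (e x₀) δ, ENNReal.ofReal (4 * C * (Q₁⁻¹) ^ j) * DD h K (s - s₀) e z :=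
        setLIntegral_mono' measurableSet_ball fun z hz => hn.est hQ0 hy hK1 F L hs a hs0 hz
    _ ≤ ∫⁻ z in e.target ∩ e.symm ⁻¹' U, ENNReal.ofReal (4 * C * (Q₁⁻¹) ^ j) *
          DD h K (s - s₀) e z := lintegral_mono_set h2
    _ = ENNReal.ofReal (4 * C * (Q₁⁻¹) ^ j) *
          ∫⁻ z in e.target ∩ e.symm ⁻¹' U, DD h K (s - s₀) e z :=
        lintegral_const_mul' _ _ ENNReal.ofReal_ne_top
    _ ≤ ENNReal.ofReal (4 * C * (Q₁⁻¹) ^ j) * ENNReal.ofReal C₀ :=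
        mul_le_mul_right (h1.trans hC₀) _
    _ = _ := by rw [← ENNReal.ofReal_mul hc]

end

end Vale.Agent.P284.H553.K8
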