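import Vale.Agent.P284.H553.K8.T
import Vale.Agent.P284.H553.K8.C
import Vale.Agent.P284.H286.K.EngD

/-!
# P284 (helper553), K8: the multi-forms of the sections are `L²` on `X`
-/

open scoped Manifold ContDiff Topology ComplexConjugate ComplexOrder ENNReal InnerProductSpace
open Filter Set Metric MeasureTheory

noncomputable section

namespace Vale.Agent.P284.H553.K8

open Vale.Agent.P272.K Vale.Agent.P284.H573 Vale.Agent.P284.H395 Vale.Agent.P284.H998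
  Vale.Agent.P284.H998.U Vale.Agent.P284.H553.LB Vale.Agent.P284.H608.K Vale.Agent.P284.H837
  Vale.Agent.P284.H894 Vale.Agent.P284.H894.G Vale.Agent.P284.H47.K Vale.Agent.P284.H286.K

section
variable {n R m : ℕ} {X E : Type} [TopologicalSpace X] [T2Space X] [CompactSpace X]
  [ChartedSpace (Cm n) X] [TopologicalSpace E]
  {H : Type} [NormedAddCommGroup H] [InnerProductSpace ℂ H] [CompleteSpace H]
  {p : E → X} {v : E → Chart n X → (Fin R → Cm n) → H} [IsManifold 𝓘(ℂ, Cm n) ω X]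
  [MeasurableSpace X] [BorelSpace X]
  {w h ρ : Chart n X → Cm n → Matrix (Fin n) (Fin n) ℂ} {j : ℕ} {K : KA n (MZ p v)}

open Classical in
/-- the density `|s|² det h` in the chart `e` -/
def DD {q : ℕ} (h : Chart n X → Cm n → Matrix (Fin n) (Fin n) ℂ) (K : KA n (MZ p v)) (s : K.Fm q)
    (e : Chart n X) (z : Cm n) : ℝ≥0∞ :=
  if hz : e.symm z ∈ Zs p v then 0 else
    ENNReal.ofReal ((K.dn s s ⟨e.symm z, hz⟩).re * (h e z).det.re)

theorem int_DD (hBV : BVolStmt) (hy : Hyp n R m X w h ρ E p H v) [Nonempty (MZ p v)]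
    (hK1 : K1Stmt) (hK3 : K3Stmt n (MZ p v) K) (hvol : VolV p v (Zs p v) h K.μ) {q : ℕ}
    {s : K.Fm q} (hs : K.IsForm s) (hsm : K.Smooth s) {e : Chart n X} (he : e ∈ atlas (Cm n) X)
    {U : Set X} (hU : IsOpen U) (hUe : U ⊆ e.source) (hUZ : ∀ x ∈ U, x ∉ Zs p v) :
    ∫⁻ z in e.target ∩ e.symm ⁻¹' U, DD h K s e z ≤ K.nl s := by
  have hf : Measurable fun x => ENNReal.ofReal (K.dn s s x).re :=
    (Complex.continuous_re.comp (continuous_dn hK3 hs hsm hs hsm)).measurable.ennreal_ofReal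
  have h1 := hBV n R m X w h ρ E p H v hy K.μ hvol e he U hU hUe hUZ _ hf
  have h2 : ∫⁻ z in e.target ∩ e.symm ⁻¹' U, DD h K s e z =
      ∫⁻ z in (rch e U hU hUe hUZ).target, ENNReal.ofReal
        (K.dn s s ((rch e U hU hUe hUZ).symm z)).re * ENNReal.ofReal (h e z).det.re := by
    refine setLIntegral_congr_fun ((e.symm.isOpen_inter_preimage hU).measurableSet) fun z hz => ?_
    have h3 : e.symm z ∉ Zs p v := hUZ _ hz.2
    have h4 : (rch e U hU hUe hUZ).symm z = ⟨e.symm z, h3⟩ :=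
      Subtype.ext (rch_symm' (hU := hU) (hUe := hUe) (hUZ := hUZ) hz)
    simp only [DD]
    rw [dif_neg h3, h4, ENNReal.ofReal_mul (dn_nonneg hK1 _ _)]
  rw [h2, ← h1]
  exact setLIntegral_le_lintegral _ _

/-- `(B)` for the multi-form -/
theorem tot_le (hB : BStmt) (hy : Hyp n R m X w h ρ E p H v) {x₁ : X} {e : Chart n X}
    (he : At e x₁) (ξ : Fin R → Cm n) :
    ∃ C : ℝ, 0 ≤ C ∧ ∀ᶠ x in 𝓝 x₁, At e x ∧ ∀ (j : ℕ) (K : KA n (MZ p v)) (L : KL p v h j K)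
      (s : K.Fm R), K.IsForm s → ∀ hx : x ∉ Zs p v, ∀ y, p y = x →
      ‖L.tot s x e ξ‖ ^ 2 ≤
        C * ((K.dn s s ⟨x, hx⟩).re * (h e (e x)).det.re) * ‖v y e ξ‖ ^ (2 * j) := by
  obtain ⟨C, hC, hev⟩ := hB n R m X w h ρ E p H v hy x₁ e he ξ
  refine ⟨C, hC, ?_⟩
  filter_upwards [hev] with x hx
  refine ⟨hx.1, fun j K L s hs hxZ y hyx => ?_⟩
  obtain ⟨i, hi⟩ := L.exists_ix ⟨x, hxZ⟩
  have hi' : x ∈ L.U i := hi
  have h1 := hx.2 j K L s hs i hi' hxZ
  rw [L.norm_tot hy.line hy.form hs hi' hx.1]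
  have h2 : ‖v (L.τ i x) e ξ‖ = ‖v y e ξ‖ := by
    have := L.hτ i x hi'
    exact hy.form.inv _ _ e (this.symm ▸ hx.1) (this.trans hyx.symm) ξ
  rw [h2, ← mul_assoc]
  exact mul_le_mul_of_nonneg_right h1 (by positivity)

/-- the multi-form of a square integrable section is locally square integrable on `X` -/
theorem l2_loc (hB : BStmt) (hBV : BVolStmt) (hy : Hyp n R m X w h ρ E p H v) [Nonempty (MZ p v)]
    (hK1 : K1Stmt) (hK3 : K3Stmt n (MZ p v) K) (hvol : VolV p v (Zs p v) h K.μ)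
    (L : KL p v h j K) {s : K.Fm R} (hs : K.IsForm s) (hsm : K.Smooth s) (hfin : K.nl s < ⊤)
    {x₁ : X} {e : Chart n X} (he : At e x₁) (ξ : Fin R → Cm n) :
    ∃ r > 0, ∫⁻ z in ball (e x₁) r ∩ {z | e.symm z ∈ GoodX p R m v},
      ‖L.tot s (e.symm z) e ξ‖ₑ ^ 2 ≠ ⊤ := by
  obtain ⟨C, hC, hev⟩ := tot_le hB hy he ξ
  obtain ⟨M, hM⟩ := v_bdd hy.form hy.cov hy.surj he ξ
  have h0 : ∀ᶠ z in 𝓝 (e x₁), z ∈ e.target ∧ (At e (e.symm z) ∧
      ∀ hx : e.symm z ∉ Zs p v, ∀ y, p y = e.symm z → ‖L.tot s (e.symm z) e ξ‖ ^ 2 ≤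
        C * ((K.dn s s ⟨e.symm z, hx⟩).re * (h e (e (e.symm z))).det.re) *
          ‖v y e ξ‖ ^ (2 * j)) ∧ ∀ y, p y = e.symm z → ‖v y e ξ‖ ≤ M := by
    filter_upwards [he.nhds_target, ev_chart he hev, ev_chart he hM] with z h1 h2 h3
    exact ⟨h1, ⟨h2.1, fun hx y hyx => h2.2 j K L s hs hx y hyx⟩, h3⟩
  obtain ⟨r, hr, hball⟩ := Metric.eventually_nhds_iff_ball.1 h0
  refine ⟨r, hr, ?_⟩
  set U : Set X := e.source ∩ e ⁻¹' ball (e x₁) r ∩ (Zs p v)ᶜ with hUdef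
  have hZ : IsOpen (Zs p v)ᶜ := hy.vd.closed.isOpen_compl
  have hU : IsOpen U := (e.isOpen_inter_preimage isOpen_ball).inter hZ
  have hUe : U ⊆ e.source := fun x hx => hx.1.1
  have hUZ : ∀ x ∈ U, x ∉ Zs p v := fun x hx => hx.2
  have h1 := int_DD hBV hy hK1 hK3 hvol hs hsm he.1 hU hUe hUZ
  set c : ℝ := C * |M| ^ (2 * j) with hc
  have hc0 : 0 ≤ c := by positivity
  have h2 : ∫⁻ z in ball (e x₁) r ∩ {z | e.symm z ∈ GoodX p R m v},
      ‖L.tot s (e.symm z) e ξ‖ₑ ^ 2 ≤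
      ∫⁻ z in e.target ∩ e.symm ⁻¹' U, ENNReal.ofReal c * DD h K s e z := by
    refine le_trans (lintegral_mono_set (t := e.target ∩ e.symm ⁻¹' U) ?_)
      (setLIntegral_mono' (e.symm.isOpen_inter_preimage hU).measurableSet ?_)
    · intro z hz
      have h3 := hball z hz.1
      refine ⟨h3.1, ⟨⟨e.map_target h3.1, ?_⟩, ?_⟩⟩
      · show e (e.symm z) ∈ ball (e x₁) r
        rw [e.right_inv h3.1]; exact hz.1
      · obtain ⟨y, hyx, e', b, γ, hnf⟩ := hz.2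
        show e.symm z ∉ Zs p v
        rw [← hyx]
        exact notMem_of_nz hy.form (nz_of_nf hnf)
    · intro z hz
      have hzb : z ∈ ball (e x₁) r := by
        have := hz.2.1.2
        rw [mem_preimage, e.right_inv hz.1] at this
        exact this
      have h3 := hball z hzb
      have hzZ : e.symm z ∉ Zs p v := hz.2.2
      obtain ⟨y, hyx⟩ := hy.surj (e.symm z)
      have h4 := h3.2.1.2 hzZ y hyx
      have h5 := h3.2.2 y hyx
      rw [e.right_inv hz.1] at h4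
      have h6 : 0 ≤ (K.dn s s ⟨e.symm z, hzZ⟩).re * (h e z).det.re := by
        refine mul_nonneg (dn_nonneg hK1 _ _) ?_
        have := (hy.koff.posDef e (e.symm z) ⟨he.1, e.map_target hz.1⟩ hzZ).det_pos
        rw [e.right_inv hz.1] at this
        exact (Complex.pos_iff.1 this).1.le
      have h7 : ‖L.tot s (e.symm z) e ξ‖ ^ 2 ≤
          c * ((K.dn s s ⟨e.symm z, hzZ⟩).re * (h e z).det.re) := by
        refine h4.trans ?_
        rw [hc]
        have h8 : ‖v y e ξ‖ ^ (2 * j) ≤ |M| ^ (2 * j) :=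
          pow_le_pow_left₀ (norm_nonneg _) (h5.trans (le_abs_self _)) _
        calc C * ((K.dn s s ⟨e.symm z, hzZ⟩).re * (h e z).det.re) * ‖v y e ξ‖ ^ (2 * j)
            ≤ C * ((K.dn s s ⟨e.symm z, hzZ⟩).re * (h e z).det.re) * |M| ^ (2 * j) :=
              mul_le_mul_of_nonneg_left h8 (by positivity)
          _ = _ := by ring
      rw [DD, dif_neg hzZ, ← ENNReal.ofReal_mul hc0, ← ofReal_norm,
        ← ENNReal.ofReal_pow (norm_nonneg _)]
      exact ENNReal.ofReal_le_ofReal h7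
  refine ne_top_of_le_ne_top ?_ h2
  have hfin2 : ∫⁻ z in e.target ∩ e.symm ⁻¹' U, DD h K s e z < ⊤ := h1.trans_lt hfin
  rw [lintegral_const_mul' _ _ ENNReal.ofReal_ne_top]
  exact ENNReal.mul_ne_top ENNReal.ofReal_ne_top hfin2.ne

/-- **the multi-form is a section** in the sense of `LSec` -/
theorem lsec {Γ : Type} [Group Γ] [MulAction Γ E] [PreconnectedSpace E] (hB : BStmt)
    (hBV : BVolStmt)
    (hy : Hyp n R m X w h ρ E p H v) [Nonempty (MZ p v)]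
    (hK1 : K1Stmt) (hK3 : K3Stmt n (MZ p v) K) (hvol : VolV p v (Zs p v) h K.μ)
    (L : KL p v h j K) (hG : IsGalois Γ p) (heqv : Eqv Γ p v) (hj : 1 ≤ j) (hAd : AdRank)
    (hT : ThinC n (GoodX p R m v))
    (hφ : ∀ i, ∀ z ∈ (K.e i).target, cHess (K.φ i) z = (j : ℂ) • ρ (L.e i) z)
    {s : K.Fm R} (hs : K.IsForm s) (hsm : K.Smooth s) (hol : K.Hol s) (hfin : K.nl s < ⊤)
    (hA : ∀ i, ∀ z ∈ (K.e i).target, Ad (K.w i z) (cHess (K.φ i) z) (s i z) = 0) :
    LSec p R m (m * j + 1) v (L.tot s) := by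
  refine lsec_of_L2 hy.cov hT ?_ ?_ ?_
  · intro x hx e he
    exact L.nf hy.line hy.form hG heqv hy.hm hy.rhoF hy.koff hφ hj hAd hs hol hA hx he
  · intro x hx e e' he he' ξ
    obtain ⟨y, hyx, e₁, b, γ, hnf⟩ := hx
    have hxZ : x ∉ Zs p v := by
      rw [← hyx]; exact notMem_of_nz hy.form (nz_of_nf hnf)
    exact L.tot_change hy.line hy.form hs hxZ he he' ξ
  · intro x e he ξ
    exact l2_loc hB hBV hy hK1 hK3 hvol L hs hsm hfin he ξ

end

end Vale.Agent.P284.H553.K8
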