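import Vale.Agent.P284.H553.K8.T

/-!
# P284 (helper553), K8: the functional `ℓ₀`, cut-off functions, the leaf chart near its centre
-/

open scoped Manifold ContDiff Topology ComplexConjugate ComplexOrder ENNReal InnerProductSpace
open Filter Set Metric MeasureTheory

noncomputable section

namespace Vale.Agent.P284.H553.K8

open Vale.Agent.P272.K Vale.Agent.P284.H573 Vale.Agent.P284.H395 Vale.Agent.P284.H998
  Vale.Agent.P284.H998.U Vale.Agent.P284.H553.LB Vale.Agent.P284.H608.K Vale.Agent.P284.H837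
  Vale.Agent.P284.H894 Vale.Agent.P284.H894.G Vale.Agent.P284.H47.K Vale.Agent.P284.H213.KL

section
variable {R : ℕ} {H : Type} [NormedAddCommGroup H] [InnerProductSpace ℂ H]

/-- the functional `⟨γ b₀, ·⟩ / ‖γ b₀‖` -/
def l0 (γ : Cm R → H) (b₀ : Cm R) : H →L[ℂ] ℂ := ((‖γ b₀‖ : ℂ)⁻¹) • innerSL ℂ (γ b₀)

theorem l0_apply (γ : Cm R → H) (b₀ : Cm R) (u : H) :
    l0 γ b₀ u = (‖γ b₀‖ : ℂ)⁻¹ * ⟪γ b₀, u⟫_ℂ := rfl

theorem norm_l0 (γ : Cm R → H) (b₀ : Cm R) (u : H) :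
    ‖l0 γ b₀ u‖ = ‖γ b₀‖⁻¹ * ‖⟪γ b₀, u⟫_ℂ‖ := by
  rw [l0_apply, norm_mul, norm_inv, Complex.norm_real, norm_norm]

theorem rat_self {γ : Cm R → H} {b₀ : Cm R} (h : γ b₀ ≠ 0) : rat γ (l0 γ b₀) b₀ = 1 := by
  have h1 : 0 < ‖γ b₀‖ := norm_pos_iff.2 h
  have h2 : ‖⟪γ b₀, γ b₀⟫_ℂ‖ = ‖γ b₀‖ ^ 2 := by
    rw [inner_self_eq_norm_sq_to_K]
    simp
  rw [rat, norm_l0, h2]
  field_simp

theorem rat_nonneg (γ : Cm R → H) (ℓ₀ : H →L[ℂ] ℂ) (b : Cm R) : 0 ≤ rat γ ℓ₀ b := by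
  unfold rat; positivity

theorem rat_lt {γ : Cm R → H} {b₀ b : Cm R} (h₀ : γ b₀ ≠ 0) (h : γ b ≠ 0)
    (hinj : ∀ a : ℂ, γ b ≠ a • γ b₀) : rat γ (l0 γ b₀) b < 1 := by
  have h1 : 0 < ‖γ b₀‖ := norm_pos_iff.2 h₀
  have h2 : 0 < ‖γ b‖ := norm_pos_iff.2 h
  have h3 : ‖⟪γ b₀, γ b⟫_ℂ‖ < ‖γ b₀‖ * ‖γ b‖ := by
    refine lt_of_le_of_ne (norm_inner_le_norm _ _) fun h4 => ?_
    obtain ⟨a, -, ha⟩ := (norm_inner_eq_norm_iff h₀ h).1 h4
    exact hinj a ha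
  rw [rat, norm_l0, div_lt_one (by positivity)]
  have h4 : ‖γ b₀‖⁻¹ * ‖⟪γ b₀, γ b⟫_ℂ‖ < ‖γ b‖ := by
    rw [inv_mul_lt_iff₀ h1]; exact h3
  exact pow_lt_pow_left₀ h4 (by positivity) (by norm_num)

theorem rat_cont {γ : Cm R → H} (ℓ₀ : H →L[ℂ] ℂ) {b : Cm R} (hγ : ContinuousAt γ b)
    (h : γ b ≠ 0) : ContinuousAt (rat γ ℓ₀) b := by
  have h2 : 0 < ‖γ b‖ := norm_pos_iff.2 h
  exact (((ℓ₀.continuous.continuousAt.comp hγ).norm).pow 2).div (hγ.norm.pow 2) (by positivity)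

theorem rat_sup {γ : Cm R → H} {b₀ : Cm R} {K : Set (Cm R)} (hK : IsCompact K)
    (h₀ : γ b₀ ≠ 0) (hγ : ∀ b ∈ K, ContinuousAt γ b) (h : ∀ b ∈ K, γ b ≠ 0)
    (hinj : ∀ b ∈ K, ∀ a : ℂ, γ b ≠ a • γ b₀) :
    ∃ Q : ℝ, 0 ≤ Q ∧ Q < 1 ∧ ∀ b ∈ K, rat γ (l0 γ b₀) b ≤ Q := by
  rcases K.eq_empty_or_nonempty with he | hne
  · exact ⟨0, le_rfl, one_pos, fun b hb => by rw [he] at hb; exact hb.elim⟩
  · obtain ⟨b, hb, hmax⟩ := hK.exists_isMaxOn hne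
      (f := rat γ (l0 γ b₀)) fun b hb => (rat_cont _ (hγ b hb) (h b hb)).continuousWithinAt
    exact ⟨_, rat_nonneg _ _ _, rat_lt h₀ (h b hb) (hinj b hb), fun b' hb' => hmax hb'⟩

end

section
variable {R : ℕ}

/-- `1, b_1, …, b_R` -/
def PP (a : Fin (R + 1)) (b : Cm R) : ℂ := (Fin.cons 1 b : Fin (R + 1) → ℂ) a

theorem PP_smooth (a : Fin (R + 1)) : ContDiff ℂ ω (PP (R := R) a) := by
  refine Fin.cases ?_ (fun a => ?_) a
  · exact contDiff_const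
  · exact contDiff_apply ℂ ℂ a

theorem PP_smoothR (a : Fin (R + 1)) : ContDiff ℝ ∞ (PP (R := R) a) :=
  ((PP_smooth a).restrict_scalars ℝ).of_le (by exact_mod_cast le_top)

/-- the cut-off function -/
def cutf (b₀ : Cm R) (r : ℝ) (hr : 0 < r) : ContDiffBump b₀ :=
  { rIn := r / 3, rOut := r / 2, rIn_pos := by positivity, rIn_lt_rOut := by linarith }

/-- `f = χ P_a` -/
def ff (b₀ : Cm R) (r : ℝ) (hr : 0 < r) (a : Fin (R + 1)) (b : Cm R) : ℂ :=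
  (cutf b₀ r hr b : ℂ) * PP a b

theorem ff_smooth (b₀ : Cm R) (r : ℝ) (hr : 0 < r) (a : Fin (R + 1)) :
    ContDiff ℝ ∞ (ff b₀ r hr a) :=
  (Complex.ofRealCLM.contDiff.comp (cutf b₀ r hr).contDiff).mul (PP_smoothR a)

theorem ff_tsupport (b₀ : Cm R) (r : ℝ) (hr : 0 < r) (a : Fin (R + 1)) :
    tsupport (ff b₀ r hr a) ⊆ closedBall b₀ (r / 2) := by
  have h1 : Function.support (ff b₀ r hr a) ⊆ closedBall b₀ (r / 2) := by
    intro b hb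
    by_contra h
    apply hb
    have h2 : cutf b₀ r hr b = 0 := (cutf b₀ r hr).zero_of_le_dist (by
      rw [mem_closedBall, not_le] at h
      exact h.le)
    rw [ff, h2, Complex.ofReal_zero, zero_mul]
  exact closure_minimal h1 isClosed_closedBall

theorem ff_compact (b₀ : Cm R) (r : ℝ) (hr : 0 < r) (a : Fin (R + 1)) :
    HasCompactSupport (ff b₀ r hr a) :=
  (isCompact_closedBall b₀ (r / 2)).of_isClosed_subset (isClosed_tsupport _)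
    (ff_tsupport b₀ r hr a)

theorem ff_eq (b₀ : Cm R) (r : ℝ) (hr : 0 < r) (a : Fin (R + 1)) {b : Cm R}
    (hb : b ∈ ball b₀ (r / 3)) : ff b₀ r hr a b = PP a b := by
  have h2 : cutf b₀ r hr b = 1 := (cutf b₀ r hr).one_of_mem_closedBall (ball_subset_closedBall hb)
  rw [ff, h2, Complex.ofReal_one, one_mul]

/-- the support of the derivative of the cut-off function -/
def annu (b₀ : Cm R) (r : ℝ) : Set (Cm R) := closedBall b₀ (r / 2) \ ball b₀ (r / 3)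

theorem annu_compact (b₀ : Cm R) (r : ℝ) : IsCompact (annu b₀ r) :=
  (isCompact_closedBall b₀ (r / 2)).diff isOpen_ball

theorem annu_sub (b₀ : Cm R) {r : ℝ} (hr : 0 < r) : annu b₀ r ⊆ ball b₀ r := fun b hb =>
  closedBall_subset_ball (by linarith) hb.1

theorem dzb_ff (b₀ : Cm R) (r : ℝ) (hr : 0 < r) (a : Fin (R + 1)) {b : Cm R} (hb : b ∉ annu b₀ r)
    (l : Fin R) : dzb l (ff b₀ r hr a) b = 0 := by
  by_cases h : b ∈ ball b₀ (r / 3)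
  · have h1 : ff b₀ r hr a =ᶠ[𝓝 b] PP a := by
      filter_upwards [isOpen_ball.mem_nhds h] with b' hb' using ff_eq b₀ r hr a hb'
    have h2 : dzb l (ff b₀ r hr a) b = dzb l (PP a) b := by
      unfold dzb; rw [h1.fderiv_eq]
    rw [h2]
    exact dzb_of_holo ((PP_smooth a).differentiable (by simp) b)
  · have h0 : b ∉ closedBall b₀ (r / 2) := fun h' => hb ⟨h', h⟩
    have h1 : ff b₀ r hr a =ᶠ[𝓝 b] fun _ => 0 := by
      filter_upwards [isClosed_closedBall.isOpen_compl.mem_nhds h0] with b' hb'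
      by_contra h3
      exact hb' (ff_tsupport b₀ r hr a (subset_tsupport _ h3))
    unfold dzb
    rw [h1.fderiv_eq]
    simp

theorem exists_D (b₀ : Cm R) (r : ℝ) (hr : 0 < r) : ∃ D : ℝ, 0 ≤ D ∧ ∀ a, ∀ b ∈ annu b₀ r,
    ∑ l, ‖dzb l (ff b₀ r hr a) b‖ ^ 2 ≤ D := by
  have h1 : ∀ a, ContinuousOn (fun b => ∑ l, ‖dzb l (ff b₀ r hr a) b‖ ^ 2) (annu b₀ r) := by
    intro a
    refine (continuous_finsetSum _ fun l _ => ?_).continuousOn
    have h2 : Continuous (fderiv ℝ (ff b₀ r hr a)) :=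
      (ff_smooth b₀ r hr a).continuous_fderiv (by simp)
    unfold dzb
    fun_prop
  have h2 : ∀ a, ∃ D : ℝ, ∀ b ∈ annu b₀ r, ∑ l, ‖dzb l (ff b₀ r hr a) b‖ ^ 2 ≤ D := by
    intro a
    obtain ⟨D, hD⟩ := (annu_compact b₀ r).bddAbove_image (h1 a)
    exact ⟨D, fun b hb => hD (mem_image_of_mem _ hb)⟩
  choose D hD using h2
  refine ⟨∑ a, |D a|, Finset.sum_nonneg fun a _ => abs_nonneg _, fun a b hb => ?_⟩
  exact (hD a b hb).trans ((le_abs_self _).trans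
    (Finset.single_le_sum (f := fun a => |D a|) (fun a _ => abs_nonneg _) (Finset.mem_univ a)))

end

end Vale.Agent.P284.H553.K8
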