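import Vale.Agent.P284.H553.K8.Tot

/-!
# P284 (helper553), K8: the multi-form of a section in the conormal line
-/

open scoped Manifold ContDiff Topology ComplexConjugate ComplexOrder ENNReal InnerProductSpace
open Filter Set Metric MeasureTheory

noncomputable section

namespace Vale.Agent.P284.H553.K8

open Vale.Agent.P272.K Vale.Agent.P284.H573 Vale.Agent.P284.H395 Vale.Agent.P284.H998
  Vale.Agent.P284.H998.U Vale.Agent.P284.H553.LB Vale.Agent.P284.H608.K Vale.Agent.P284.H837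
  Vale.Agent.P284.H894 Vale.Agent.P284.H894.G Vale.Agent.P284.H213.KL

/-- the algebra of forms killed by `A_ρ` -/
def AdRank : Prop :=
  ∀ (n R : ℕ) (w ρ : Matrix (Fin n) (Fin n) ℂ) (b : Cm n → Cm R) (z : Cm n) (c : ℝ) (η : Af n R),
    w.PosDef → 0 < c → (ρ - (c : ℂ) • BB b z).PosSemidef → Ad w ρ η = 0 → ∀ ξ₀ : Fin R → Cm n,
    (∀ j, fderiv ℂ b z (ξ₀ j) = Pi.single j 1) → η = η ξ₀ • dF b z

theorem ad_frame (hAd : AdRank) {n R : ℕ} {w ρ : Matrix (Fin n) (Fin n) ℂ} {b : Cm n → Cm R}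
    {z : Cm n} {c : ℝ} {η : Af n R} (hw : w.PosDef) (hc : 0 < c)
    (hρ : (ρ - (c : ℂ) • BB b z).PosSemidef) (hA : Ad w ρ η = 0)
    (hs : Function.Surjective (fderiv ℂ b z)) {ξ₁ : Fin R → Cm n} (h1 : (DM b z ξ₁).det ≠ 0) :
    η = (η ξ₁ / (DM b z ξ₁).det) • dF b z := by
  obtain ⟨ξ₀, hξ₀⟩ := exists_rinv hs
  have h2 := hAd n R w ρ b z c η hw hc hρ hA ξ₀ hξ₀
  have h3 : η ξ₁ = η ξ₀ * (DM b z ξ₁).det := by
    conv_lhs => rw [h2]
    rw [ContinuousAlternatingMap.smul_apply, dF_apply, smul_eq_mul]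
  rw [h3, mul_div_cancel_right₀ _ h1]
  exact h2

section
variable {n R m : ℕ} {X E : Type} [TopologicalSpace X] [ChartedSpace (Cm n) X] [TopologicalSpace E]
  {H : Type} [NormedAddCommGroup H] [InnerProductSpace ℂ H] [CompleteSpace H]
  {p : E → X} {v : E → Chart n X → (Fin R → Cm n) → H} [IsManifold 𝓘(ℂ, Cm n) ω X]

/-- the formula of `StkU` for `ρ` -/
def RhoF (p : E → X) (v : E → Chart n X → (Fin R → Cm n) → H)
    (ρ : Chart n X → Cm n → Matrix (Fin n) (Fin n) ℂ) : Prop :=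
  ∀ (y : E) (e : Chart n X), At e (p y) → ∀ V : Cm n × (Fin R → Cm n) → H,
    (∀ ξ, AnalyticAt ℂ V (e (p y), ξ)) → (∀ᶠ y' in 𝓝 y, ∀ ξ, v y' e ξ = V (e (p y'), ξ)) →
    ∀ ξ, v y e ξ ≠ 0 →
      ρ e (e (p y)) = cHess (fun z => Real.log (‖V (z, ξ)‖ ^ 2)) (e (p y))

omit [CompleteSpace H] [IsManifold 𝓘(ℂ, Cm n) ω X] in
theorem nz_of_nf {y : E} {e : Chart n X} {b : Cm n → Cm R} {γ : Cm R → H}
    (h : IsNF m p v y e b γ) : NZ p v y := by
  obtain ⟨ξ₀, hξ₀⟩ := exists_rinv h.bsurj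
  refine ⟨e, h.mem, ξ₀, ?_⟩
  rw [h.nf.self_of_nhds ξ₀]
  have h1 : (Matrix.of fun i j => fderiv ℂ b (e (p y)) (ξ₀ j) i).det = 1 := by
    have := LM_rinv hξ₀
    rw [LM] at this
    rw [this, Matrix.det_one]
  rw [h1, one_pow, one_smul]
  exact h.imm.1

/-- `ρ` at the good points -/
theorem rho_nf (hv : HForm n R m p H v) (hm : 1 ≤ m)
    {ρ : Chart n X → Cm n → Matrix (Fin n) (Fin n) ℂ} (hρ : RhoF p v ρ) {y : E} {e : Chart n X}
    {b : Cm n → Cm R} {γ : Cm R → H} (h : IsNF m p v y e b γ) :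
    ρ e (e (p y)) = cHess (fun z => Real.log (‖γ (b z)‖ ^ 2)) (e (p y)) := by
  obtain ⟨ξ, hξ⟩ := NZ.chart hv (nz_of_nf h) h.mem
  have h3 := hρ y e h.mem _ (fun ξ => V_an m h.ban h.γan ξ) h.nf ξ hξ
  rw [h3]
  have h4 : (fun z => Real.log (‖(DM b z ξ).det ^ m • γ (b z)‖ ^ 2)) =
      fun z => Real.log ((‖(DM b z ξ).det‖ ^ m * ‖γ (b z)‖) ^ 2) := by
    funext z
    rw [norm_smul, norm_pow]
  rw [h4]
  have h5 := h.nf.self_of_nhds ξ
  rw [h5] at hξ
  have h6 : (DM b (e (p y)) ξ).det ≠ 0 := by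
    intro h
    have h' : (Matrix.of fun i j => fderiv ℂ b (e (p y)) (ξ j) i).det = 0 := h
    rw [h', zero_pow (by omega), zero_smul] at hξ
    exact hξ rfl
  exact cHess_fac (g := fun z => γ (b z)) (detDM_an' h.ban ξ) h6
    (AnalyticAt.fun_comp (g := γ) (f := b) h.γan h.ban) h.imm.1

/-- `ρ` is bounded below at the good points -/
theorem rho_nf_ge (hv : HForm n R m p H v) (hm : 1 ≤ m)
    {ρ : Chart n X → Cm n → Matrix (Fin n) (Fin n) ℂ} (hρ : RhoF p v ρ) {y : E} {e : Chart n X}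
    {b : Cm n → Cm R} {γ : Cm R → H} (h : IsNF m p v y e b γ) :
    ∃ c : ℝ, 0 < c ∧ (ρ e (e (p y)) - (c : ℂ) • BB b (e (p y))).PosSemidef := by
  obtain ⟨c, hc, h1⟩ := fs_lower (K := {b (e (p y))}) isCompact_singleton
    (γ := γ) (fun a ha => by rw [Set.mem_singleton_iff.1 ha]; exact h.γan)
    (fun a ha => by rw [Set.mem_singleton_iff.1 ha]; exact h.imm)
  refine ⟨c, hc, ?_⟩
  rw [rho_nf hv hm hρ h]
  exact fs_comp h.ban h.γan h.imm.1 (h1 _ rfl)

omit [CompleteSpace H] [IsManifold 𝓘(ℂ, Cm n) ω X] [ChartedSpace (Cm n) X] in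
/-- a local section through `g • y` is near `y` the translation by `g` -/
theorem sec_eq {Γ : Type} [Group Γ] [MulAction Γ E] (hG : IsGalois Γ p) {U : Set X} (hU : IsOpen U)
    {τ : X → E} (hτ : ∀ x ∈ U, p (τ x) = x) (hτc : ContinuousOn τ U) {y : E} (hy : p y ∈ U) {g : Γ}
    (hg : g • y = τ (p y)) : ∀ᶠ y' in 𝓝 y, τ (p y') = g • y' := by
  obtain ⟨f, hf, hpf⟩ := hG.cov.isLocalHomeomorph (g • y)
  have h1 : ∀ᶠ y' in 𝓝 y, g • y' ∈ f.source :=
    (hG.cont g).continuousAt.eventually (f.open_source.mem_nhds hf)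
  have h2 : ContinuousAt (fun y' => τ (p y')) y :=
    ContinuousAt.comp (g := τ) (f := p) ((hτc _ hy).continuousAt (hU.mem_nhds hy))
      hG.cov.continuous.continuousAt
  have h3 : ∀ᶠ y' in 𝓝 y, τ (p y') ∈ f.source := by
    refine h2.eventually ?_
    show ∀ᶠ y in 𝓝 (τ (p y)), y ∈ f.source
    rw [← hg]
    exact f.open_source.mem_nhds hf
  have h4 : ∀ᶠ y' in 𝓝 y, p y' ∈ U := hG.cov.continuous.continuousAt.eventually (hU.mem_nhds hy)
  filter_upwards [h1, h3, h4] with y' a1 a2 a3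
  refine f.injOn a2 a1 ?_
  rw [← hpf, hτ _ a3]
  exact (hG.orb y' (g • y')).2 ⟨g, rfl⟩

end

section
variable {n R m : ℕ} {X E : Type} [TopologicalSpace X] [ChartedSpace (Cm n) X] [TopologicalSpace E]
  [MeasurableSpace X] {H : Type} [NormedAddCommGroup H] [InnerProductSpace ℂ H] [CompleteSpace H]
  {p : E → X} {v : E → Chart n X → (Fin R → Cm n) → H}
  {h : Chart n X → Cm n → Matrix (Fin n) (Fin n) ℂ} {j : ℕ} {K : KA n (MZ p v)}
  [IsManifold 𝓘(ℂ, Cm n) ω X]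

theorem KL.nf {Γ : Type} [Group Γ] [MulAction Γ E] (L : KL p v h j K)
    (hL : Line n p v (Zs p v)) (hv : HForm n R m p H v) (hG : IsGalois Γ p) (heqv : Eqv Γ p v)
    (hm : 1 ≤ m) {ρ : Chart n X → Cm n → Matrix (Fin n) (Fin n) ℂ} (hρ : RhoF p v ρ)
    (hh : KOff (Zs p v) h)
    (hφ : ∀ i, ∀ z ∈ (K.e i).target, cHess (K.φ i) z = (j : ℂ) • ρ (L.e i) z) (hj : 1 ≤ j)
    (hAd : AdRank) {s : K.Fm R} (hs : K.IsForm s) (hol : K.Hol s)
    (hA : ∀ i, ∀ z ∈ (K.e i).target, Ad (K.w i z) (cHess (K.φ i) z) (s i z) = 0)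
    {x : X} (hx : x ∈ GoodX p R m v) {e : Chart n X} (he : At e x) :
    ∃ (y : E) (b : Cm n → Cm R) (γ : Cm R → H) (S : Cm n → ℂ), p y = x ∧
      IsNF m p v y e b γ ∧ AnalyticAt ℂ S (e x) ∧
      ∀ᶠ x' in 𝓝 x, ∀ ξ, L.tot s x' e ξ = (DM b (e x') ξ).det ^ (m * j + 1) * S (e x') := by
  obtain ⟨y, hy, e₁, b₁, γ, hnf₁⟩ := hx
  subst hy
  have hc := hG.cov.continuous
  have hnf := nf_change hv hc hnf₁ he
  set b : Cm n → Cm R := fun z => b₁ (e₁ (e.symm z)) with hb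
  have hxZ : p y ∉ Zs p v := notMem_of_nz hv (nz_of_nf hnf)
  obtain ⟨i, hi⟩ := L.exists_ix ⟨p y, hxZ⟩
  have hi' : p y ∈ L.U i := hi
  have hnfi := nf_change hv hc hnf (L.atU hi')
  set bi : Cm n → Cm R := fun z => b (e ((L.e i).symm z)) with hbi
  obtain ⟨g, hg⟩ := (hG.orb y (L.τ i (p y))).1 (L.hτ i _ hi').symm
  obtain ⟨U, hU⟩ := heqv g
  obtain ⟨ξ₁, hξ₁⟩ := exists_rinv hnfi.bsurj
  have hd1 : (DM bi (L.e i (p y)) ξ₁).det = 1 := by
    rw [DM_eq, LM_rinv hξ₁, Matrix.det_one]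
  have hxe : e.symm (e (p y)) = p y := he.left_inv
  -- analyticity
  have htr : AnalyticAt ℂ (fun z => L.e i (e.symm z)) (e (p y)) :=
    (transition he (L.atU hi')).analyticAt
  have hS1 : AnalyticAt ℂ (fun z => s i (L.e i (e.symm z)) ξ₁) (e (p y)) := by
    have h1 : AnalyticAt ℂ (fun z => s i z ξ₁) (L.e i (e.symm (e (p y)))) := by
      rw [hxe]
      exact AnalyticAt.fun_comp
        (g := fun A : Af n R => A ξ₁) (f := s i)
        (((ContinuousAlternatingMap.apply ℂ (Cm n) ℂ ξ₁).analyticAt _))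
        (hol i _ (L.mem_tgt hi'))
    exact AnalyticAt.fun_comp (g := fun z => s i z ξ₁) (f := fun z => L.e i (e.symm z)) h1 htr
  have hS2 : AnalyticAt ℂ (fun z => (DM bi (L.e i (e.symm z)) ξ₁).det) (e (p y)) := by
    have h1 : AnalyticAt ℂ (fun z => (DM bi z ξ₁).det) (L.e i (e.symm (e (p y)))) := by
      rw [hxe]
      exact detDM_an' hnfi.ban ξ₁
    exact AnalyticAt.fun_comp (g := fun z => (DM bi z ξ₁).det)
      (f := fun z => L.e i (e.symm z)) h1 htr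
  have hS3 : AnalyticAt ℂ (fun z => L.ℓ i (U (γ (b z)))) (e (p y)) := by
    have h1 : AnalyticAt ℂ (fun z => γ (b z)) (e (p y)) :=
      AnalyticAt.fun_comp (g := γ) (f := b) hnf.γan hnf.ban
    exact AnalyticAt.fun_comp (g := fun u => (L.ℓ i).comp U.toContinuousLinearMap u)
      (f := fun z => γ (b z)) (ContinuousLinearMap.analyticAt _ _) h1
  have hS20 : (DM bi (L.e i (e.symm (e (p y)))) ξ₁).det ≠ 0 := by
    rw [hxe, hd1]; exact one_ne_zero
  refine ⟨y, b, γ, fun z => s i (L.e i (e.symm z)) ξ₁ / (DM bi (L.e i (e.symm z)) ξ₁).det *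
    L.ℓ i (U (γ (b z))) ^ j, rfl, hnf, (hS1.fun_div hS2 hS20).fun_mul (hS3.fun_pow j), ?_⟩
  have h5 : ∀ᶠ y' in 𝓝 y, (DM bi (L.e i (p y')) ξ₁).det ≠ 0 := by
    have h1 : ContinuousAt (fun z => (DM bi z ξ₁).det) (L.e i (p y)) :=
      (detDM_an' hnfi.ban ξ₁).continuousAt
    have h2 : ContinuousAt (fun y' => L.e i (p y')) y :=
      ((L.e i).continuousAt (L.atU hi').2).comp hc.continuousAt
    have h3 : ContinuousAt (fun y' => (DM bi (L.e i (p y')) ξ₁).det) y :=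
      ContinuousAt.comp (g := fun z => (DM bi z ξ₁).det) (f := fun y' => L.e i (p y')) h1 h2
    exact h3.eventually_ne (by rw [hd1]; exact one_ne_zero)
  have h6 := ev_base hG.cov ((H221.nf_eventually hc hnf).and ((H221.nf_eventually hc hnfi).and
    ((sec_eq hG (L.hU i) (L.hτ i) (L.hτc i) hi' hg).and h5)))
  filter_upwards [h6, (L.hU i).mem_nhds hi', ev_at he] with x' hx' hxi hxe' ξ
  obtain ⟨y', rfl, a1, a2, a3, a4⟩ := hx'
  have hat : At (L.e i) (p y') := L.atU hxi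
  rw [L.tot_eq hL hv hs hxi hxe' ξ]
  -- the value of `v`
  have b1 : v (L.τ i (p y')) e ξ = (DM b (e (p y')) ξ).det ^ m • U (γ (b (e (p y')))) := by
    rw [a3, hU y' e hxe' ξ, a1.nf.self_of_nhds ξ, map_smul]
  -- the value of `s`
  obtain ⟨c, hc0, hc1⟩ := rho_nf_ge hv hm hρ a2
  have b2 : ((j : ℂ) • ρ (L.e i) (L.e i (p y')) - ((j * c : ℝ) : ℂ) • BB bi (L.e i (p y'))).PosSemidef := by
    have := hc1.smul (a := (j : ℂ)) (by positivity)
    rw [smul_sub, smul_smul] at this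
    push_cast
    exact this
  have b3 : K.w i (L.e i (p y')) = h (L.e i) (L.e i (p y')) := L.w i _ (L.mem_tgt hxi)
  have b4 := hA i _ (L.mem_tgt hxi)
  rw [b3, hφ i _ (L.mem_tgt hxi)] at b4
  have b5 := ad_frame hAd (hh.posDef (L.e i) (p y') hat (L.hUZ i _ hxi))
    (show (0 : ℝ) < j * c by positivity) b2 b4 a2.bsurj a4
  have b6 : (DM bi (L.e i (p y')) fun k => tau e (L.e i) (p y') (ξ k)).det =
      (DM b (e (p y')) ξ).det := by
    have c1 := DM_comp hxe' hat a1.ban (fun k => tau e (L.e i) (p y') (ξ k))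
    have c2 : (fun k => tau (L.e i) e (p y') (tau e (L.e i) (p y') (ξ k))) = ξ := by
      funext k
      have c3 := tau_comp hxe' hat hxe'
      rw [tau_self hxe'] at c3
      have c4 := congrArg (fun T : Cm n →L[ℂ] Cm n => T (ξ k)) c3
      simpa using c4.symm
    rw [c2] at c1
    exact congrArg Matrix.det c1
  have b7 : s i (L.e i (p y')) (fun k => tau e (L.e i) (p y') (ξ k)) =
      s i (L.e i (p y')) ξ₁ / (DM bi (L.e i (p y')) ξ₁).det * (DM b (e (p y')) ξ).det := by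
    conv_lhs => rw [b5]
    rw [ContinuousAlternatingMap.smul_apply, dF_apply, b6, smul_eq_mul]
  rw [b7, b1, hxe'.left_inv, map_smul, smul_eq_mul]
  ring

end

end Vale.Agent.P284.H553.K8
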