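import Vale.Agent.P284.H553.K8.Fin
import Vale.Agent.P284.H752.K1
import Vale.Agent.P284.H279.K.K2
import Vale.Agent.P284.H205.K.Main
import Vale.Agent.P284.H395.K.K8b
import Vale.Agent.P284.H47.K.BVol
import Vale.Agent.P284.H47.K.Kl
import Vale.Agent.P284.H335.CStkE
import Vale.Agent.P284.H366.K.B8
import Vale.Agent.P284.H619.K.AlgE
import Vale.Agent.P284.H206.K.BogK
import Vale.Agent.P284.H291.K.Lf
import Vale.Agent.P284.H213.K.S
import Vale.Agent.P284.H837.N.S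

/-!
# P284 (helper553), K8: special compact Kähler manifolds, final assembly

`OutStmt` (the application of the engine) is a hypothesis here.
-/

open scoped Manifold ContDiff Topology ComplexConjugate ComplexOrder ENNReal InnerProductSpace
open Filter Set Metric MeasureTheory

noncomputable section

namespace Vale.Agent.P284.H553.K8

open Vale.Agent.P272.K Vale.Agent.P284.H573 Vale.Agent.P284.H395 Vale.Agent.P284.H998
  Vale.Agent.P284.H998.U Vale.Agent.P284.H553.LB Vale.Agent.P284.H608.K Vale.Agent.P284.H837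
  Vale.Agent.P284.H894 Vale.Agent.P284.H894.G Vale.Agent.P284.H47.K Vale.Agent.P284.H213.KL
  Vale.Agent.P284.H286.K Vale.Agent.P284.H248

/-- **the application of the engine** -/
def OutStmt : Prop :=
  ∀ (n r₁ m : ℕ) (X : Type) [TopologicalSpace X] [T2Space X] [CompactSpace X]
    [ChartedSpace (Cm n) X] [IsManifold 𝓘(ℂ, Cm n) ω X] [MeasurableSpace X] [BorelSpace X]
    (w h ρ : Chart n X → Cm n → Matrix (Fin n) (Fin n) ℂ)
    (E : Type) [TopologicalSpace E] (p : E → X) (H : Type) [NormedAddCommGroup H]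
    [InnerProductSpace ℂ H] [CompleteSpace H] (v : E → Chart n X → (Fin (r₁ + 1) → Cm n) → H)
    (_ : Hyp n (r₁ + 1) m X w h ρ E p H v) (_ : Nonempty (CutOff (Zs p v) h))
    (γ : Cm (r₁ + 1) → H) (b₀ : Cm (r₁ + 1)) (r : ℝ)
    (N : Set X) (β : X → Cm (r₁ + 1)) (x₀ : X) (F : Lf m p v γ b₀ r N β x₀)
    [Nonempty (MZ p v)],
    ∃ C₁ Q : ℝ, 0 ≤ Q ∧ Q < 1 ∧ ∀ (j : ℕ) (a : Fin (r₁ + 1 + 1)), ∃ (K : KA n (MZ p v))
      (L : KL p v h (j + 1) K) (s : K.Fm (r₁ + 1)),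
      OutAt m p v h ρ γ b₀ r F.pos N β (j + 1) a (C₁ * Q ^ (j + 1)) K L s

/-- **K3** -/
theorem k3 (n : ℕ) (M : Type) [TopologicalSpace M] [T2Space M] [MeasurableSpace M] [BorelSpace M]
    (K : KA n M) : K3Stmt n M K :=
  H205.K.k3_of H752.k1Stmt (H279.K.k2Adj_of H752.k1Stmt) (H279.K.k2BK_of H752.k1Stmt)
    (H279.K.k2BK0_of H752.k1Stmt) n M K

section
variable {n R m : ℕ} {X E : Type} [TopologicalSpace X] [T2Space X] [CompactSpace X]
  [ChartedSpace (Cm n) X] [TopologicalSpace E]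
  {H : Type} [NormedAddCommGroup H] [InnerProductSpace ℂ H] [CompleteSpace H]
  {p : E → X} {v : E → Chart n X → (Fin R → Cm n) → H} [IsManifold 𝓘(ℂ, Cm n) ω X]
  {w : Chart n X → Cm n → Matrix (Fin n) (Fin n) ℂ}
  {γ : Cm R → H} {b₀ : Cm R} {r : ℝ} {N : Set X} {β : X → Cm R} {x₀ : X}

omit [T2Space X] [CompactSpace X] [CompleteSpace H] in
theorem Lf.nfAt (hv : HForm n R m p H v) (hp : Continuous p) (hm : 1 ≤ m)
    (F : Lf m p v γ b₀ r N β x₀) : ∃ y, NFAt p R m R v y := by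
  obtain ⟨y, hy, h⟩ := F.isNF hv hp hm F.mem
  have h1 := h (chartAt (Cm n) x₀) (at_chart x₀)
  exact ⟨y, _, _, _, γ, h1.mem, h1.ban, h1.bsurj, h1.ban, h1.γan, h1.imm.1, h1.nf⟩

/-- the semipositive form and the complete metric -/
theorem exists_hyp {Γ : Type} [Group Γ] [MulAction Γ E] [ConnectedSpace E] (hw : IsKahler w)
    (hG : IsGalois Γ p) (heqv : Eqv Γ p v) (hv : HForm n R m p H v) (hR : 1 ≤ R) (hm : 1 ≤ m)
    (F : Lf m p v γ b₀ r N β x₀) :
    ∃ h ρ, Hyp n R m X w h ρ E p H v ∧ Nonempty (CutOff (Zs p v) h) := by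
  obtain ⟨y₀, hnf⟩ := F.nfAt hv hG.cov.continuous hm
  obtain ⟨hZ, ρ, C, u, hρ, hu, hf⟩ := stkUStmt n X w hw E p hG.cov hG.surj H R m R hR hm v hv y₀ hnf
  obtain ⟨h, hh, hc, hge, hmass⟩ := H395.K.k8b n X w hw (Zs p v) hZ R ρ hρ C u hu
  have hdec := Vale.Agent.P284.H335.decStmt n X E p hG.cov hG.surj H R m R hR hm v hv y₀ hnf
  have hd := Vale.Agent.P284.H335.dec_of_nf hR hm hG.cov hv hnf
  exact ⟨h, ρ, ⟨hR, hm, hw, hG.cov, hG.surj, hv, vD_zs hG.cov hG.surj hv hm hd,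
    fun x hx e he => line_at hG heqv hdec hx he, hh, hge, hρ, hf, hmass⟩, hc⟩

/-- **`R + 1` sections with independent ratios**, compact Kähler manifolds -/
theorem sec_of (hO : OutStmt) {Γ : Type} [Group Γ] [MulAction Γ E] [ConnectedSpace E]
    (hw : IsKahler w) (hG : IsGalois Γ p) (heqv : Eqv Γ p v) (hv : HForm n R m p H v)
    (hR : 1 ≤ R) (hm : 1 ≤ m) (F : Lf m p v γ b₀ r N β x₀) :
    ∃ k, 1 ≤ k ∧ ∃ s : Fin (R + 1) → X → Chart n X → (Fin R → Cm n) → ℂ,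
      (∀ a, LSec p R m k v (s a)) ∧
      ∃ x ∈ GoodX p R m v, ∃ (e : Chart n X) (ξ : Fin R → Cm n), At e x ∧ s 0 x e ξ ≠ 0 ∧
        LinearIndependent ℂ fun a : Fin R =>
          fderiv ℂ (fun z => s a.succ (e.symm z) e ξ / s 0 (e.symm z) e ξ) (e x) := by
  let _ : MeasurableSpace X := borel X
  have _ : BorelSpace X := ⟨rfl⟩
  have _ : Nonempty (MZ p v) := ⟨⟨x₀, F.off _ F.mem⟩⟩
  obtain ⟨h, ρ, hy, hc⟩ := exists_hyp hw hG heqv hv hR hm F
  obtain ⟨r₁, rfl⟩ : ∃ r₁, R = r₁ + 1 := ⟨R - 1, by omega⟩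
  obtain ⟨C₁, Q, hQ0, hQ1, hout⟩ := hO n r₁ m X w h ρ E p H v hy hc γ b₀ r N β x₀ F
  exact fin_of_out H366.K.bStmt H47.K.bVolStmt hy H752.k1Stmt (k3 n _) hG heqv H619.K.adRank F
    hQ0 hQ1 hout

/-- **The consumer form for special compact Kähler manifolds** -/
theorem sp_falseK [PreconnectedSpace E] (hw : IsKahler w) (hX : Special n X) (hR : 1 ≤ R)
    (hv : HForm n R m p H v) (hp : IsCoveringMap p) (hsp : Function.Surjective p) (hm : 1 ≤ m)
    {k : ℕ} (hk : 1 ≤ k) {s : Fin (R + 1) → X → Chart n X → (Fin R → Cm n) → ℂ}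
    (hs : ∀ a, LSec p R m k v (s a)) {x : X} (hx : x ∈ GoodX p R m v) {e : Chart n X}
    {ξ : Fin R → Cm n} (he : At e x) (h0 : s 0 x e ξ ≠ 0)
    (hli : LinearIndependent ℂ fun a : Fin R =>
      fderiv ℂ (fun z => s a.succ (e.symm z) e ξ / s 0 (e.symm z) e ξ) (e x)) : False := by
  obtain ⟨y, hy, e', b, γ, hnf⟩ := id hx
  have hRn : R ≤ n := by
    have h1 := LinearMap.finrank_le_finrank_of_surjective
      (f := (fderiv ℂ b (e' (p y))).toLinearMap) hnf.bsurj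
    simpa using h1
  have hT := Vale.Agent.P284.H174.GD.goodX_thin hv hp hsp (y₀ := y) ⟨e', b, γ, hnf⟩
  obtain ⟨L, φ, h1, h2, h3⟩ := iit_dec hv hp hsp hm hT hk hs hx he h0 hli
  exact hX R hR hRn L ⟨h3, H206.K.bogKStmt n R X w hw L φ h2⟩ φ h1

end

/-- **SP** for special compact Kähler manifolds, affine maps (program N) -/
theorem spKN_of (hO : OutStmt) : Vale.Agent.P284.H837.N.SpKN := by
  intro n X _ _ _ _ _ _ w hw hX E Γ _ _ _ _ p hG q F hF hper H _ _ _ R m hR hm v hv heqv hN hL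
  obtain ⟨γ, b₀, r, N, β, x₀, hLf⟩ :=
    H291.K.lfStmtN n X E Γ p hG q F hF hper H R m hR hm v hv heqv hN hL
  obtain ⟨k, hk, s, hs, x, hx, e, ξ, he, h0, hli⟩ := sec_of hO hw hG heqv hv hR hm hLf
  exact sp_falseK hw hX hR hv hG.cov hG.surj hm hk hs hx he h0 hli

/-- **SP** for special compact Kähler manifolds -/
theorem spK_of (hO : OutStmt) : Vale.Agent.P284.H213.K.SpK := by
  intro n X _ _ _ _ _ _ w hw hX E Γ _ _ _ _ p hG q F c hF hper H _ _ _ R m hR hm v hv heqv hN hL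
  exact spKN_of hO n X w hw hX E Γ p hG q F hF (Vale.Agent.P284.H837.N.aff_of_trans hper) H R m hR
    hm v hv heqv hN hL

end Vale.Agent.P284.H553.K8
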