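import Vale.Agent.P284.H553.K8.Link

/-!
# P284 (helper553), K8: the multi-form of a section
-/

open scoped Manifold ContDiff Topology ComplexConjugate ComplexOrder ENNReal InnerProductSpace
open Filter Set Metric MeasureTheory

noncomputable section

namespace Vale.Agent.P284.H553.K8

open Vale.Agent.P272.K Vale.Agent.P284.H573 Vale.Agent.P284.H395 Vale.Agent.P284.H998
  Vale.Agent.P284.H998.U Vale.Agent.P284.H553.LB Vale.Agent.P284.H608.K Vale.Agent.P284.H837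
  Vale.Agent.P284.H894 Vale.Agent.P284.H894.G

section
variable {n : ℕ} {X : Type} [TopologicalSpace X] [ChartedSpace (Cm n) X] [IsManifold 𝓘(ℂ, Cm n) ω X]

/-- the Jacobian matrix is the matrix of `tau` -/
theorem jacM_eq {e e' : Chart n X} {x : X} (he : At e x) (he' : At e' x) :
    jacM e e' x = LinearMap.toMatrix' ((tau e e' x : Cm n →L[ℂ] Cm n) : Cm n →ₗ[ℂ] Cm n) := by
  ext i k
  rw [LinearMap.toMatrix'_apply]
  have h1 := Vale.Agent.P272.K.QN.jm_apply (transition_differentiableAt he he') i k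
  exact h1

theorem tau_bij {e e' : Chart n X} {x : X} (he : At e x) (he' : At e' x) :
    Function.Bijective (tau e e' x) := by
  have h1 : (tau e' e x).comp (tau e e' x) = ContinuousLinearMap.id ℂ _ := by
    rw [← tau_comp he he' he, tau_self he]
  have h2 : (tau e e' x).comp (tau e' e x) = ContinuousLinearMap.id ℂ _ := by
    rw [← tau_comp he' he he', tau_self he']
  constructor
  · intro a b hab
    have := congrArg (tau e' e x) hab
    have h3 := congrArg (fun L : Cm n →L[ℂ] Cm n => L a) h1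
    have h4 := congrArg (fun L : Cm n →L[ℂ] Cm n => L b) h1
    simp only [ContinuousLinearMap.comp_apply, ContinuousLinearMap.id_apply] at h3 h4
    rw [← h3, ← h4, this]
  · intro a
    refine ⟨tau e' e x a, ?_⟩
    have h3 := congrArg (fun L : Cm n →L[ℂ] Cm n => L a) h2
    simpa using h3

/-- the metric and the product of forms in another chart -/
theorem hn_chart (hK1 : K1Stmt) {Z : Set X} {h : Chart n X → Cm n → Matrix (Fin n) (Fin n) ℂ}
    (hh : KOff Z h) {p : ℕ} {e e' : Chart n X} {x : X} (he : At e x) (he' : At e' x) (hx : x ∉ Z)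
    (A B : Af n p) :
    hn (h e (e x)) (A.compContinuousLinearMap (tau e e' x))
      (B.compContinuousLinearMap (tau e e' x)) = hn (h e' (e' x)) A B := by
  rw [hh.change e e' x he he' hx, jacM_eq he he']
  exact hK1.pull n p _ _ (hh.posDef e' x he' hx) (tau_bij he he') A B

end

section
variable {n R m : ℕ} {X E : Type} [TopologicalSpace X] [ChartedSpace (Cm n) X] [TopologicalSpace E]
  [MeasurableSpace X] {H : Type} [NormedAddCommGroup H] [InnerProductSpace ℂ H]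
  {p : E → X} {v : E → Chart n X → (Fin R → Cm n) → H}
  {h : Chart n X → Cm n → Matrix (Fin n) (Fin n) ℂ} {j : ℕ} {K : KA n (MZ p v)}

/-- Lines: the consequence of `line_at` for all points off the zeros of `v`. -/
def Line (n : ℕ) {X E : Type} [TopologicalSpace X] [ChartedSpace (Cm n) X] {R : ℕ} {H : Type}
    [NormedAddCommGroup H] [NormedSpace ℂ H] (p : E → X)
    (v : E → Chart n X → (Fin R → Cm n) → H) (Z : Set X) : Prop :=
  ∀ x ∉ Z, ∀ e : Chart n X, At e x →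
    ∃ (c : (Fin R → Cm n) → ℂ) (G : E → H), (∃ ξ, c ξ ≠ 0) ∧ (∃ a : ℝ, 0 < a ∧ ∀ y, p y = x →
      ‖G y‖ = a) ∧ (∀ y, p y = x → ∀ ξ, v y e ξ = c ξ • G y)

namespace KL

variable (L : KL p v h j K)

theorem atU {i : K.I} {x : X} (hx : x ∈ L.U i) : At (L.e i) x := ⟨L.he i, L.hUe i hx⟩

theorem mem_src {i : K.I} {x : MZ p v} (hx : x.1 ∈ L.U i) : x ∈ (K.e i).source := by
  rw [L.src]; exact hx

theorem mem_tgt {i : K.I} {x : X} (hx : x ∈ L.U i) : L.e i x ∈ (K.e i).target := by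
  rw [L.tgt]
  exact ⟨(L.e i).map_source (L.hUe i hx), by
    show (L.e i).symm (L.e i x) ∈ L.U i
    rw [(L.atU hx).left_inv]; exact hx⟩

theorem exists_ix (x : MZ p v) : ∃ i, x.1 ∈ L.U i := by
  obtain ⟨i, hi⟩ := K.cover x
  rw [L.src] at hi
  exact ⟨i, hi⟩

/-- the transition maps of `K` -/
theorem trans_ev {i : K.I} (i' : K.I) {x : X} (hx : x ∈ L.U i) :
    (fun z => K.e i' ((K.e i).symm z)) =ᶠ[𝓝 (L.e i x)]
      fun z => L.e i' ((L.e i).symm z) := by
  filter_upwards [(K.e i).open_target.mem_nhds (L.mem_tgt hx)] with z hz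
  rw [L.app, L.symm i z hz]

theorem trans_fderiv {i : K.I} (i' : K.I) {x : X} (hx : x ∈ L.U i) :
    fderiv ℂ (fun z => K.e i' ((K.e i).symm z)) (L.e i x) = tau (L.e i) (L.e i') x :=
  (L.trans_ev i' hx).fderiv_eq

/-- the transition functions of the line bundle -/
theorem a_mul (hL : Line n p v (Zs p v)) (hv : HForm n R m p H v) {i i' : K.I} {x : X}
    (hx : x ∈ L.U i) (hx' : x ∈ L.U i') {e : Chart n X} (he : At e x) (ξ : Fin R → Cm n) :
    K.a i i' (L.e i x) * L.ℓ i (v (L.τ i x) e ξ) ^ j = L.ℓ i' (v (L.τ i' x) e ξ) ^ j := by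
  obtain ⟨c, G, -, -, hc⟩ := hL x (L.hUZ i x hx) (L.e i) (L.atU hx)
  have h1 : (L.e i).symm (L.e i x) = x := (L.atU hx).left_inv
  rw [L.a i i' (L.e i x) (L.mem_tgt hx) (by rw [h1]; exact hx'), h1]
  have hi := L.hτ i x hx
  have hi' := L.hτ i' x hx'
  have hne := L.hne i x hx
  have key : ∀ y, p y = x → ∀ ξ, v y e ξ = c (fun k => tau e (L.e i) x (ξ k)) • G y := by
    intro y hy ξ
    have := hv.change y e (L.e i) (hy ▸ he) (hy ▸ L.atU hx) ξ
    rw [this, hy]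
    exact hc y hy _
  rw [hc _ hi, hc _ hi', key _ hi, key _ hi']
  rw [hc _ hi, map_smul, smul_eq_mul] at hne
  obtain ⟨h2, h3⟩ := mul_ne_zero_iff.1 hne
  simp only [map_smul, smul_eq_mul]
  rw [← mul_pow]
  congr 1
  field_simp

/-- the weight -/
theorem weight (hL : Line n p v (Zs p v)) (hv : HForm n R m p H v) {i : K.I} {x : X}
    (hx : x ∈ L.U i) {e : Chart n X} (he : At e x) (ξ : Fin R → Cm n) :
    ‖L.ℓ i (v (L.τ i x) e ξ)‖ ^ (2 * j) =
      Real.exp (-K.φ i (L.e i x)) * ‖v (L.τ i x) e ξ‖ ^ (2 * j) := by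
  obtain ⟨c, G, -, ⟨a, ha, hG⟩, hc⟩ := hL x (L.hUZ i x hx) (L.e i) (L.atU hx)
  have h1 : (L.e i).symm (L.e i x) = x := (L.atU hx).left_inv
  rw [L.φ i (L.e i x) (L.mem_tgt hx), h1]
  have hi := L.hτ i x hx
  have hne := L.hne i x hx
  have key : ∀ y, p y = x → ∀ ξ, v y e ξ = c (fun k => tau e (L.e i) x (ξ k)) • G y := by
    intro y hy ξ
    have := hv.change y e (L.e i) (hy ▸ he) (hy ▸ L.atU hx) ξ
    rw [this, hy]
    exact hc y hy _
  rw [hc _ hi, key _ hi]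
  rw [hc _ hi, map_smul, smul_eq_mul] at hne
  obtain ⟨h2, h3⟩ := mul_ne_zero_iff.1 hne
  have h4 : 0 < ‖c (L.ξ i)‖ := norm_pos_iff.2 h2
  have h5 : 0 < ‖L.ℓ i (G (L.τ i x))‖ := norm_pos_iff.2 h3
  have h6 : 0 < ‖G (L.τ i x)‖ := by rw [hG _ hi]; exact ha
  simp only [map_smul, norm_smul]
  have h7 : Real.exp (-(j * (Real.log ((‖c (L.ξ i)‖ * ‖G (L.τ i x)‖) ^ 2) -
      Real.log ((‖c (L.ξ i)‖ * ‖L.ℓ i (G (L.τ i x))‖) ^ 2)))) =
      (‖L.ℓ i (G (L.τ i x))‖ ^ 2 / ‖G (L.τ i x)‖ ^ 2) ^ j := by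
    rw [show -(j * (Real.log ((‖c (L.ξ i)‖ * ‖G (L.τ i x)‖) ^ 2) -
      Real.log ((‖c (L.ξ i)‖ * ‖L.ℓ i (G (L.τ i x))‖) ^ 2))) =
      (j : ℝ) * (Real.log ((‖c (L.ξ i)‖ * ‖L.ℓ i (G (L.τ i x))‖) ^ 2) -
        Real.log ((‖c (L.ξ i)‖ * ‖G (L.τ i x)‖) ^ 2)) by ring,
      ← Real.log_div (by positivity) (by positivity), Real.exp_nat_mul, Real.exp_log (by positivity)]
    congr 1
    field_simp
  rw [h7, pow_mul, pow_mul, ← mul_pow]
  congr 1
  field_simp

/-- the components of a form -/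
theorem form_change {q : ℕ} {s : K.Fm q} (hs : K.IsForm s) {i i' : K.I} {x : X} (hx : x ∈ L.U i)
    (hx' : x ∈ L.U i') :
    s i (L.e i x) = K.a i i' (L.e i x) • (s i' (L.e i' x)).compContinuousLinearMap
      (tau (L.e i) (L.e i') x) := by
  have h1 := hs.change i i' ⟨x, L.hUZ i x hx⟩ (L.mem_src hx) (L.mem_src hx')
  rw [L.app, L.app] at h1
  rw [h1, L.trans_fderiv i' hx]

open Classical in
/-- the multi-form of `s` -/
def tot (s : K.Fm R) (x : X) (e : Chart n X) (ξ : Fin R → Cm n) : ℂ :=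
  if hx : x ∈ Zs p v then 0 else
    s (L.exists_ix ⟨x, hx⟩).choose (L.e (L.exists_ix ⟨x, hx⟩).choose x)
      (fun k => tau e (L.e (L.exists_ix ⟨x, hx⟩).choose) x (ξ k)) *
      L.ℓ (L.exists_ix ⟨x, hx⟩).choose (v (L.τ (L.exists_ix ⟨x, hx⟩).choose x) e ξ) ^ j

variable [IsManifold 𝓘(ℂ, Cm n) ω X]

theorem tot_eq (hL : Line n p v (Zs p v)) (hv : HForm n R m p H v) {s : K.Fm R}
    (hs : K.IsForm s) {i : K.I} {x : X} (hx : x ∈ L.U i) {e : Chart n X} (he : At e x)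
    (ξ : Fin R → Cm n) :
    L.tot s x e ξ = s i (L.e i x) (fun k => tau e (L.e i) x (ξ k)) *
      L.ℓ i (v (L.τ i x) e ξ) ^ j := by
  have hxZ := L.hUZ i x hx
  unfold tot
  rw [dif_neg hxZ]
  set i' := (L.exists_ix ⟨x, hxZ⟩).choose with hi'
  have hx' : x ∈ L.U i' := (L.exists_ix ⟨x, hxZ⟩).choose_spec
  rw [L.form_change hs hx hx', ← L.a_mul hL hv hx hx' he ξ]
  have h1 := tau_comp he (L.atU hx) (L.atU hx')
  simp only [ContinuousAlternatingMap.smul_apply,
    ContinuousAlternatingMap.compContinuousLinearMap_apply, smul_eq_mul]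
  have h2 : (fun k => tau e (L.e i') x (ξ k)) =
      (tau (L.e i) (L.e i') x : Cm n → Cm n) ∘ fun k => tau e (L.e i) x (ξ k) := by
    funext k
    rw [h1]
    rfl
  rw [h2]
  ring

theorem tot_change (hL : Line n p v (Zs p v)) (hv : HForm n R m p H v) {s : K.Fm R}
    (hs : K.IsForm s) {x : X} (hx : x ∉ Zs p v) {e e' : Chart n X} (he : At e x) (he' : At e' x)
    (ξ : Fin R → Cm n) : L.tot s x e ξ = L.tot s x e' (fun k => tau e e' x (ξ k)) := by
  obtain ⟨i, hi⟩ := L.exists_ix ⟨x, hx⟩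
  have hi' : x ∈ L.U i := hi
  rw [L.tot_eq hL hv hs hi' he, L.tot_eq hL hv hs hi' he']
  have h1 := tau_comp he he' (L.atU hi')
  have hτ := L.hτ i x hi'
  have h2 := hv.change (L.τ i x) e e' (hτ.symm ▸ he) (hτ.symm ▸ he') ξ
  rw [hτ] at h2
  rw [h2, h1]
  rfl

theorem norm_tot (hL : Line n p v (Zs p v)) (hv : HForm n R m p H v) {s : K.Fm R}
    (hs : K.IsForm s) {i : K.I} {x : X} (hx : x ∈ L.U i) {e : Chart n X} (he : At e x)
    (ξ : Fin R → Cm n) :
    ‖L.tot s x e ξ‖ ^ 2 = ‖s i (L.e i x) (fun k => tau e (L.e i) x (ξ k))‖ ^ 2 *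
      (Real.exp (-K.φ i (L.e i x)) * ‖v (L.τ i x) e ξ‖ ^ (2 * j)) := by
  rw [L.tot_eq hL hv hs hx he, norm_mul, mul_pow, norm_pow, ← pow_mul, mul_comm j 2,
    L.weight hL hv hx he]

end KL

end

end Vale.Agent.P284.H553.K8
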